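import Vale.Agent.P196.H881.HPibar
import Vale.Agent.P196.Tile.Local

/-!
The instance of the 104 tiles: `t` is a valid aperiodic tiling.
-/

namespace Vale.Agent.P196.H881

open Vale.Agent.P196.Wang

theorem validT : Valid Tile.east Tile.west Tile.north Tile.south (t : ℤ × ℤ → Tile) where
  hor := by
    rintro ⟨x, y⟩
    have := t_wang_h x y
    rw [this]
    show _ = Tile.west (t (x + 1, y + 0))
    rw [add_zero]
  ver := by
    rintro ⟨x, y⟩
    have := t_wang_v x y
    rw [this]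
    show _ = Tile.south (t (x + 0, y + 1))
    rw [add_zero]

theorem aperiodicT (v : ℤ × ℤ) (hv : v ≠ 0) : ∃ u : ℤ × ℤ, t (u + v) ≠ t u := by
  by_contra h
  push Not at h
  obtain ⟨F, hF, hcov, hdis⟩ := LS_free v hv
  obtain ⟨E, hE, h0⟩ := hcov v
  obtain ⟨R, hR⟩ := hF E hE
  have h1 : SameWin R (0 : ℤ × ℤ) v := by
    intro a b _ _
    have := h ((0 : ℤ × ℤ).1 + a, (0 : ℤ × ℤ).2 + b)
    rw [← this]
    congr 1
    apply Prod.ext
    · show (0 + a) + v.1 = v.1 + a
      ring
    · show (0 + b) + v.2 = v.2 + b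
      ring
  have h2 : (0 : ℤ × ℤ) ∈ E := (hR _ _ h1).2 h0
  exact Set.disjoint_left.1 (hdis E hE) h0 (by simpa using h2)

end Vale.Agent.P196.H881
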