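import Vale.Agent.P196.H881.HSupp
import Vale.Agent.P196.S0.Simple

/-!
The homomorphism `pi : H → Perm ((ℤ × ℤ) × ι)` attached to a valid tiling.
-/

namespace Vale.Agent.P196.H881

set_option linter.unusedSectionVars false

open Subgroup Equiv
open Vale.Agent.P196.S0 (Z2 eP dP grp dP_apply eP_apply_mem eP_apply_notMem)

variable {ι : Type*} [Fintype ι] [DecidableEq ι] {T : Type*} [Fintype T] [DecidableEq T]
variable {C : Type*} [Fintype C] [DecidableEq C] (E W N S : T → C)

/-- a valid tiling of the plane -/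
structure Valid (t : Z2 → T) : Prop where
  hor : ∀ u : Z2, E (t u) = W (t (u + (1, 0)))
  ver : ∀ u : Z2, N (t u) = S (t (u + (0, 1)))

/-- `a : T → Alt` acts above `u` by `a (t u)` -/
def piR (t : Z2 → T) : (T → alternatingGroup ι) →* Perm (Z2 × ι) where
  toFun a :=
    { toFun := fun p => (p.1, (a (t p.1) : Perm ι) p.2)
      invFun := fun p => (p.1, (a (t p.1) : Perm ι)⁻¹ p.2)
      left_inv := fun p => by simp
      right_inv := fun p => by simp }
  map_one' := by ext1 p; rfl
  map_mul' a b := by ext1 p; rfl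

/-- displacement -/
def piD : Multiplicative (L ι) →* Perm (Z2 × ι) where
  toFun w := dP (Multiplicative.toAdd w).1
  map_one' := by ext1 ⟨u, f⟩; rw [dP_apply]; simp
  map_mul' a b := by
    ext1 ⟨u, f⟩
    rw [Perm.mul_apply, dP_apply, dP_apply, dP_apply, toAdd_mul]
    apply Prod.ext
    · show u + ((Multiplicative.toAdd a).1 f + (Multiplicative.toAdd b).1 f) =
        (u + (Multiplicative.toAdd b).1 f) + (Multiplicative.toAdd a).1 f
      abel
    · rfl

theorem piR_apply (t : Z2 → T) (a : T → alternatingGroup ι) (u : Z2) (f : ι) :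
    piR t a (u, f) = (u, (a (t u) : Perm ι) f) := rfl

/-- the homomorphism on the free product -/
def piF (t : Z2 → T) : F ι T →* Perm (Z2 × ι) := Monoid.Coprod.lift (piR t) piD

theorem piF_fr (t : Z2 → T) (a : T → alternatingGroup ι) : piF t (fr a) = piR t a := by
  unfold piF; exact Monoid.Coprod.lift_apply_inl _ _ _

theorem piF_fd (t : Z2 → T) (w : L ι) : piF t (fd w) = dP w.1 := by
  unfold piF; exact Monoid.Coprod.lift_apply_inr _ _ _

theorem conj_eq_iff {G : Type*} [Group G] {x y z : G} : x * y * x⁻¹ * z⁻¹ = 1 ↔ x * y = z * x := by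
  rw [mul_inv_eq_one, mul_inv_eq_iff_eq_mul]

theorem piF_rels {t : Z2 → T} (ht : Valid E W N S t) :
    ∀ x ∈ rels ι E W N S, piF t x = 1 := by
  have hsup : ∀ (s : Perm ι) (f : ι), f ∉ s.support → s f = f := fun s f hf =>
    Perm.notMem_support.1 hf
  rintro x (((⟨⟨g, ⟨w, hw⟩⟩, rfl⟩ | ⟨⟨a, ⟨w, hw⟩⟩, rfl⟩) | ⟨⟨k, ⟨s, hs⟩⟩, rfl⟩) |
    ⟨⟨k, ⟨s, hs⟩⟩, rfl⟩)
  · simp only [map_mul, map_inv, piF_fr, piF_fd]
    rw [conj_eq_iff]
    ext1 ⟨u, f⟩
    simp only [Perm.mul_apply, dP_apply, piR_apply, const, act_apply]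
    rw [show ((g : Perm ι)⁻¹) ((g : Perm ι) f) = f by simp]
  · simp only [map_mul, map_inv, piF_fr, piF_fd]
    rw [conj_eq_iff]
    have hz : ∀ i ∈ supp a, w.1 i = 0 := by
      have : w ∈ Lz (supp a) := by
        rw [← closure_gens]; exact AddSubgroup.subset_closure hw
      exact this
    ext1 ⟨u, f⟩
    simp only [Perm.mul_apply, dP_apply, piR_apply]
    by_cases hf : f ∈ supp a
    · rw [hz f hf, add_zero]
      have h2 : (a (t u) : Perm ι) f ∈ supp a := by
        by_contra h
        have h3 := not_mem_supp.1 h (t u)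
        have h4 : (a (t u) : Perm ι) f = f := (a (t u) : Perm ι).injective h3
        rw [h4] at h
        exact h hf
      rw [hz _ h2, add_zero]
    · rw [not_mem_supp.1 hf, not_mem_supp.1 hf]
  · simp only [map_mul, map_inv, piF_fr, piF_fd]
    rw [conj_eq_iff]
    have hw := wit_spec (1, 0) s hs
    ext1 ⟨u, f⟩
    simp only [Perm.mul_apply, dP_apply, piR_apply, col]
    by_cases hf : f ∈ (s : Perm ι).support
    · have h2 : (s : Perm ι) f ∈ (s : Perm ι).support := Perm.apply_mem_support.2 hf
      rw [hw f hf, ← ht.hor u]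
      by_cases hk : E (t u) = k
      · rw [if_pos hk]; rw [hw _ h2]
      · rw [if_neg hk]
        simp only [OneMemClass.coe_one, Perm.coe_one, id_eq]
        rw [hw f hf]
    · have h2 : (s : Perm ι) f = f := hsup _ _ hf
      have h3 : ∀ (P : Prop) [Decidable P],
          ((if P then s else 1 : alternatingGroup ι) : Perm ι) f = f := by
        intro P _
        by_cases h : P <;> simp [h, h2]
      rw [h3, h3]
  · simp only [map_mul, map_inv, piF_fr, piF_fd]
    rw [conj_eq_iff]
    have hw := wit_spec (0, 1) s hs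
    ext1 ⟨u, f⟩
    simp only [Perm.mul_apply, dP_apply, piR_apply, col]
    by_cases hf : f ∈ (s : Perm ι).support
    · have h2 : (s : Perm ι) f ∈ (s : Perm ι).support := Perm.apply_mem_support.2 hf
      rw [hw f hf, ← ht.ver u]
      by_cases hk : N (t u) = k
      · rw [if_pos hk]; rw [hw _ h2]
      · rw [if_neg hk]
        simp only [OneMemClass.coe_one, Perm.coe_one, id_eq]
        rw [hw f hf]
    · have h2 : (s : Perm ι) f = f := hsup _ _ hf
      have h3 : ∀ (P : Prop) [Decidable P],
          ((if P then s else 1 : alternatingGroup ι) : Perm ι) f = f := by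
        intro P _
        by_cases h : P <;> simp [h, h2]
      rw [h3, h3]

variable {E W N S}

/-- (H5) the homomorphism `pi : H → Perm ((ℤ × ℤ) × ι)` of a valid tiling -/
noncomputable def pi {t : Z2 → T} (ht : Valid E W N S t) : H ι E W N S →* Perm (Z2 × ι) :=
  QuotientGroup.lift (normalClosure (rels ι E W N S)) (piF t) (by
    intro x hx
    have h : normalClosure (rels ι E W N S) ≤ (piF t).ker :=
      normalClosure_le_normal (fun x hx => MonoidHom.mem_ker.2 (piF_rels E W N S ht x hx))
    exact MonoidHom.mem_ker.1 (h hx))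

variable {t : Z2 → T} (ht : Valid E W N S t)

theorem pi_rho (a : T → alternatingGroup ι) : pi ht (rho E W N S a) = piR t a :=
  piF_fr t a

theorem pi_d (w : L ι) : pi ht (d E W N S w) = dP w.1 := piF_fd t w

theorem pi_rho_apply (a : T → alternatingGroup ι) (u : Z2) (f : ι) :
    pi ht (rho E W N S a) (u, f) = (u, (a (t u) : Perm ι) f) := by
  rw [pi_rho]; rfl

/-- the site family `site v a` acts above `u` by `a (t (u - v))` -/
theorem pi_site_apply {v : Z2} {a : T → alternatingGroup ι} (h : supp a ≠ Finset.univ ∨ v = 0)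
    (u : Z2) (f : ι) :
    pi ht (site E W N S v a) (u, f) = (u, (a (t (u - v)) : Perm ι) f) := by
  obtain ⟨w, hw⟩ : ∃ w : L ι, ∀ i ∈ supp a, w.1 i = v := by
    rcases h with h | h
    · exact exists_L _ h v
    · exact ⟨0, fun i _ => by rw [h]; rfl⟩
  rw [site_eq hw, map_mul, map_mul, map_inv, pi_d, pi_rho, Perm.mul_apply, Perm.mul_apply]
  have h1 : (dP w.1)⁻¹ (u, f) = (u - w.1 f, f) := rfl
  rw [h1, piR_apply, dP_apply]
  by_cases hf : f ∈ supp a
  · have h2 : (a (t (u - w.1 f)) : Perm ι) f ∈ supp a := by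
      by_contra h
      have h3 := not_mem_supp.1 h (t (u - w.1 f))
      have h4 := (a (t (u - w.1 f)) : Perm ι).injective h3
      rw [h4] at h
      exact h hf
    rw [hw _ h2, hw f hf]
    simp
  · rw [not_mem_supp.1 hf, not_mem_supp.1 hf]; simp

/-- `pi` of the event tile `τ` at `u - v` -/
theorem pi_site_single {v : Z2} {τ : T} {s : alternatingGroup ι}
    (h : (s : Perm ι).support ≠ Finset.univ ∨ v = 0) :
    pi ht (site E W N S v (Pi.mulSingle τ s)) = eP {u | t (u - v) = τ} s := by
  have h' : supp (Pi.mulSingle (M := fun _ : T => alternatingGroup ι) τ s) ≠ Finset.univ ∨ v = 0 := by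
    rcases h with h | h
    · left
      intro h2
      apply h
      rw [← Finset.univ_subset_iff, ← h2]
      exact supp_single_le τ s
    · exact Or.inr h
  ext1 ⟨u, f⟩
  rw [pi_site_apply ht h']
  by_cases hu : t (u - v) = τ
  · rw [eP_apply_mem (show u ∈ {u | t (u - v) = τ} from hu), hu, Pi.mulSingle_eq_same]
  · rw [eP_apply_notMem (show u ∉ {u | t (u - v) = τ} from hu), Pi.mulSingle_eq_of_ne hu]
    rfl

theorem pi_c (s : alternatingGroup ι) : pi ht (c E W N S s) = eP Set.univ s := by
  ext1 ⟨u, f⟩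
  rw [eP_apply_mem (Set.mem_univ u), c, pi_rho_apply]
  rfl

end Vale.Agent.P196.H881
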