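import Mathlib.GroupTheory.FinitelyPresentedGroup
import Mathlib.GroupTheory.FreeAbelianGroup
import Mathlib.GroupTheory.Abelianization.Defs
import Mathlib.RingTheory.Noetherian.Basic
import Mathlib.LinearAlgebra.Finsupp.LinearCombination
import Mathlib.RingTheory.Finiteness.Basic
import Mathlib.Data.ZMod.Basic
import Mathlib.Tactic

/-!
Finitely generated abelian groups are finitely presented.
-/

namespace Vale.Agent.P196.H881

open Subgroup
open scoped commutatorElement

/-- The commutator subgroup of a finitely generated free group is finitely normally generated. -/
theorem commutator_freeGroup_fng (α : Type*) [Finite α] :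
    (commutator (FreeGroup α)).IsFinitelyNormallyGenerated := by
  classical
  let S : Set (FreeGroup α) :=
    Set.range (fun p : α × α => ⁅FreeGroup.of p.1, FreeGroup.of p.2⁆)
  refine ⟨S, Set.finite_range _, le_antisymm ?_ ?_⟩
  · apply normalClosure_le_normal
    rintro _ ⟨p, rfl⟩
    exact commutator_mem_commutator (mem_top _) (mem_top _)
  · let N := normalClosure S
    let q := QuotientGroup.mk' N
    have hq : Function.Surjective q := QuotientGroup.mk'_surjective N
    -- generators commute in the quotient
    have hcomm : ∀ a b : α, Commute (q (FreeGroup.of a)) (q (FreeGroup.of b)) := by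
      intro a b
      have h1 : ⁅FreeGroup.of a, FreeGroup.of b⁆ ∈ N :=
        subset_normalClosure ⟨(a, b), rfl⟩
      have h2 : q ⁅FreeGroup.of a, FreeGroup.of b⁆ = 1 :=
        (QuotientGroup.eq_one_iff _).2 h1
      rw [map_commutatorElement] at h2
      exact commutatorElement_eq_one_iff_commute.1 h2
    have htop : closure (Set.range (fun a : α => q (FreeGroup.of a))) = ⊤ := by
      have : Set.range (fun a : α => q (FreeGroup.of a)) = q '' Set.range FreeGroup.of := by
        ext x; simp
      rw [this, ← MonoidHom.map_closure, FreeGroup.closure_range_of]
      exact Subgroup.map_top_of_surjective q hq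
    have hall : ∀ x y : FreeGroup α ⧸ N, Commute x y := by
      have step1 : ∀ (a : α) (y : FreeGroup α ⧸ N), Commute (q (FreeGroup.of a)) y := by
        intro a y
        have hy : y ∈ closure (Set.range (fun a : α => q (FreeGroup.of a))) := by
          rw [htop]; exact mem_top _
        induction hy using closure_induction with
        | mem x hx => obtain ⟨b, rfl⟩ := hx; exact hcomm a b
        | one => exact Commute.one_right _
        | mul x y _ _ hx hy => exact hx.mul_right hy
        | inv x _ hx => exact hx.inv_right
      intro x y
      have hx : x ∈ closure (Set.range (fun a : α => q (FreeGroup.of a))) := by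
        rw [htop]; exact mem_top _
      induction hx using closure_induction with
      | mem x hx => obtain ⟨b, rfl⟩ := hx; exact step1 b y
      | one => exact Commute.one_left _
      | mul x z _ _ hx hz => exact hx.mul_left hz
      | inv x _ hx => exact hx.inv_left
    rw [_root_.commutator_def, commutator_le]
    intro x _ y _
    have : q ⁅x, y⁆ = 1 := by
      rw [map_commutatorElement]
      exact commutatorElement_eq_one_iff_commute.2 (hall _ _)
    exact (QuotientGroup.eq_one_iff _).1 this

/-- `Abelianization (FreeGroup α)` is finitely presented. -/
theorem fp_abelianization_freeGroup (α : Type*) [Finite α] :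
    Group.IsFinitelyPresented (Abelianization (FreeGroup α)) := by
  unfold Abelianization
  exact Group.IsFinitelyPresented.quotient _ (commutator_freeGroup_fng α)

/-- Every finitely generated abelian group is finitely presented. -/
theorem fp_of_fg_comm (M : Type*) [AddCommGroup M] [Module.Finite ℤ M] :
    Group.IsFinitelyPresented (Multiplicative M) := by
  obtain ⟨n, s, hs⟩ := Module.Finite.exists_fin (R := ℤ) (M := M)
  -- the free abelian group
  have := fp_abelianization_freeGroup (Fin n)
  let f : Abelianization (FreeGroup (Fin n)) →* Multiplicative M :=
    Abelianization.lift (FreeGroup.lift (fun i => Multiplicative.ofAdd (s i)))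
  have hf : Function.Surjective f := by
    rw [← MonoidHom.range_eq_top, eq_top_iff]
    intro x _
    have hx : Multiplicative.toAdd x ∈ Submodule.span ℤ (Set.range s) := by
      rw [hs]; exact Submodule.mem_top
    rw [Submodule.mem_span_range_iff_exists_fun] at hx
    obtain ⟨c, hc⟩ := hx
    have hx' : x = ∏ i, (Multiplicative.ofAdd (s i)) ^ (c i) := by
      apply Multiplicative.toAdd.injective
      rw [toAdd_prod, ← hc]
      rfl
    rw [hx']
    apply Subgroup.prod_mem
    intro i _
    apply Subgroup.zpow_mem
    exact ⟨Abelianization.of (FreeGroup.of i), by simp [f]⟩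
  -- the kernel is finitely generated since `Additive (Abelianization (FreeGroup (Fin n)))` is
  -- Noetherian
  have hfin : Module.Finite ℤ (Additive (Abelianization (FreeGroup (Fin n)))) := by
    have : Group.FG (Abelianization (FreeGroup (Fin n))) := by
      unfold Abelianization; infer_instance
    have h2 : AddGroup.FG (Additive (Abelianization (FreeGroup (Fin n)))) := inferInstance
    exact Module.Finite.iff_addGroup_fg.2 h2
  have hker : f.ker.IsFinitelyNormallyGenerated := by
    have hN : IsNoetherian ℤ (Additive (Abelianization (FreeGroup (Fin n)))) := inferInstance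
    have h3 : (AddSubgroup.toIntSubmodule (Subgroup.toAddSubgroup f.ker)).FG :=
      IsNoetherian.noetherian _
    have h4 : (Subgroup.toAddSubgroup f.ker).FG := by
      rw [AddSubgroup.fg_iff_addSubmonoid_fg]
      rw [← AddSubgroup.fg_iff_addSubmonoid_fg]
      exact (Submodule.fg_iff_addSubgroup_fg _).1 h3
    have h5 : f.ker.FG := by
      obtain ⟨S, hS⟩ := h4
      refine (Subgroup.fg_iff _).2 ⟨(Additive.ofMul ⁻¹' (S : Set _)), ?_, ?_⟩
      · rw [← Subgroup.toAddSubgroup.injective.eq_iff, ← hS]
        rw [Subgroup.toAddSubgroup_closure]
        rfl
      · exact S.finite_toSet.preimage (Additive.ofMul.injective.injOn)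
    have : Group.FG f.ker := (Group.fg_iff_subgroup_fg _).2 h5
    exact Subgroup.IsFinitelyNormallyGenerated.of_FG _
  exact Group.IsFinitelyPresented.of_surjective f hf hker

end Vale.Agent.P196.H881
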