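import Vale.Agent.P196.H881.FPab
import Mathlib.GroupTheory.SpecificGroups.Alternating
import Mathlib.GroupTheory.Coprod.Basic
import Mathlib.Algebra.BigOperators.Pi

/-!
The finitely presented group `H` attached to a finite set of Wang tiles.

`ι` is the set of floors, `T` the set of tiles, `C` the set of colours,
`east west north south : T → C`.
`L ι` is the group of displacement vectors `w : ι → ℤ × ℤ` of sum `0`.
`H` is generated by `rho a` (`a : T → alternatingGroup ι`) and `d w` (`w : L ι`).
-/

namespace Vale.Agent.P196.H881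

set_option linter.unusedSectionVars false

open Subgroup Equiv

/-- displacement vectors of total sum zero -/
def L (ι : Type*) [Fintype ι] : AddSubgroup (ι → ℤ × ℤ) :=
  (∑ i : ι, Pi.evalAddMonoidHom (fun _ : ι => ℤ × ℤ) i).ker

theorem mem_L {ι : Type*} [Fintype ι] {w : ι → ℤ × ℤ} : w ∈ L ι ↔ ∑ i, w i = 0 := by
  rw [L, AddMonoidHom.mem_ker, AddMonoidHom.finsetSum_apply]
  rfl

instance {ι : Type*} [Fintype ι] : Module.Finite ℤ (L ι) := by
  have : IsNoetherian ℤ (ι → ℤ × ℤ) := inferInstance
  have : Module.Finite ℤ (AddSubgroup.toIntSubmodule (L ι)) := inferInstance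
  exact this

/-- the action of permutations of floors on displacement vectors -/
def act {ι : Type*} [Fintype ι] (g : Perm ι) (w : L ι) : L ι :=
  ⟨fun i => w.1 (g⁻¹ i), by
    rw [mem_L]
    have := mem_L.1 w.2
    rw [← this]
    exact Equiv.sum_comp g⁻¹ w.1⟩

section

variable {ι : Type*} [Fintype ι] [DecidableEq ι]

@[simp] theorem act_apply (g : Perm ι) (w : L ι) (i : ι) : (act g w).1 i = w.1 (g⁻¹ i) := rfl

theorem act_add (g : Perm ι) (w w' : L ι) : act g (w + w') = act g w + act g w' := by
  apply Subtype.ext; funext i; rfl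

theorem act_mul (g h : Perm ι) (w : L ι) : act (g * h) w = act g (act h w) := by
  apply Subtype.ext; funext i
  simp [mul_inv_rev]

theorem act_one (w : L ι) : act (1 : Perm ι) w = w := by
  apply Subtype.ext; funext i; simp

theorem act_neg (g : Perm ι) (w : L ι) : act g (-w) = - act g w := by
  apply Subtype.ext; funext i; rfl

theorem act_zero (g : Perm ι) : act g (0 : L ι) = 0 := by
  apply Subtype.ext; funext i; rfl

/-- For a proper subset `I` of floors and a vector `v` there is a sum-zero `w`, `w = v` on `I`. -/
theorem exists_L (I : Finset ι) (hI : I ≠ Finset.univ) (v : ℤ × ℤ) :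
    ∃ w : L ι, ∀ i ∈ I, w.1 i = v := by
  obtain ⟨j, hj⟩ : ∃ j, j ∉ I := by
    by_contra h; push Not at h; exact hI (Finset.eq_univ_iff_forall.2 h)
  refine ⟨⟨fun i => if i ∈ I then v else if i = j then -(I.card • v) else 0, ?_⟩, ?_⟩
  · rw [mem_L]
    have : ∀ i, (if i ∈ I then v else if i = j then -(I.card • v) else 0)
        = (if i ∈ I then v else 0) + (if i = j then -(I.card • v) else 0) := by
      intro i
      by_cases h : i ∈ I
      · have : i ≠ j := fun h' => hj (h' ▸ h)
        simp [h, this]
      · simp [h]
    rw [Finset.sum_congr rfl (fun i _ => this i), Finset.sum_add_distrib]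
    simp [Finset.sum_ite_mem]
  · intro i hi; simp [hi]

/-- Two prescribed vectors on disjoint sets of floors which do not cover everything. -/
theorem exists_L₂ (I J : Finset ι) (hIJ : Disjoint I J) (hU : I ∪ J ≠ Finset.univ)
    (v v' : ℤ × ℤ) : ∃ w : L ι, (∀ i ∈ I, w.1 i = v) ∧ ∀ i ∈ J, w.1 i = v' := by
  obtain ⟨j, hj⟩ : ∃ j, j ∉ I ∪ J := by
    by_contra h; push Not at h; exact hU (Finset.eq_univ_iff_forall.2 h)
  have hjI : j ∉ I := fun h => hj (Finset.mem_union_left _ h)
  have hjJ : j ∉ J := fun h => hj (Finset.mem_union_right _ h)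
  refine ⟨⟨fun i => (if i ∈ I then v else 0) + (if i ∈ J then v' else 0)
    + (if i = j then -(I.card • v) - (J.card • v') else 0), ?_⟩, ?_, ?_⟩
  · rw [mem_L, Finset.sum_add_distrib, Finset.sum_add_distrib]
    simp [Finset.sum_ite_mem]
  · intro i hi
    have h1 : i ∉ J := Finset.disjoint_left.1 hIJ hi
    have h2 : i ≠ j := fun h => hjI (h ▸ hi)
    simp [hi, h1, h2]
  · intro i hi
    have h1 : i ∉ I := Finset.disjoint_right.1 hIJ hi
    have h2 : i ≠ j := fun h => hjJ (h ▸ hi)
    simp [hi, h1, h2]

end

section

variable (ι : Type*) [Fintype ι] [DecidableEq ι] (T : Type*) [Fintype T] [DecidableEq T]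

/-- floors moved by some value of `a` -/
def supp {ι : Type*} [Fintype ι] [DecidableEq ι] {T : Type*} [Fintype T]
    (a : T → alternatingGroup ι) : Finset ι :=
  Finset.univ.biUnion (fun τ => (a τ : Perm ι).support)

/-- the free product from which `H` is obtained -/
abbrev F := Monoid.Coprod (T → alternatingGroup ι) (Multiplicative (L ι))

end

section

variable {ι : Type*} [Fintype ι] [DecidableEq ι] {T : Type*} [Fintype T] [DecidableEq T]

theorem mem_supp {a : T → alternatingGroup ι} {i : ι} :
    i ∈ supp a ↔ ∃ τ, (a τ : Perm ι) i ≠ i := by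
  simp [supp]

theorem not_mem_supp {a : T → alternatingGroup ι} {i : ι} :
    i ∉ supp a ↔ ∀ τ, (a τ : Perm ι) i = i := by
  simp [mem_supp]

/-- `a` as an element of the free product -/
abbrev fr (a : T → alternatingGroup ι) : F ι T := Monoid.Coprod.inl a

/-- `w` as an element of the free product -/
abbrev fd (w : L ι) : F ι T := Monoid.Coprod.inr (Multiplicative.ofAdd w)

/-- the constant family -/
def const (T : Type*) (s : alternatingGroup ι) : T → alternatingGroup ι := fun _ => s

/-- the family which is `s` on the tiles `τ` with `f τ = k` and `1` elsewhere -/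
def col {C : Type*} [DecidableEq C] (f : T → C) (k : C) (s : alternatingGroup ι) :
    T → alternatingGroup ι := fun τ => if f τ = k then s else 1

/-- subgroup of displacement vectors vanishing on `I` -/
def Lz (I : Finset ι) : AddSubgroup (L ι) where
  carrier := {w | ∀ i ∈ I, w.1 i = 0}
  zero_mem' := fun _ _ => rfl
  add_mem' := by
    intro a b ha hb i hi
    have h1 := ha i hi
    have h2 := hb i hi
    show a.1 i + b.1 i = 0
    rw [h1, h2, add_zero]
  neg_mem' := by
    intro a ha i hi
    show - a.1 i = 0
    rw [ha i hi, neg_zero]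

theorem Lz_fg (I : Finset ι) : (Lz I).FG := by
  have h3 : (AddSubgroup.toIntSubmodule (Lz I)).FG := IsNoetherian.noetherian _
  exact (Submodule.fg_iff_addSubgroup_fg _).1 h3

/-- a finite generating set of `Lz I` -/
noncomputable def gens (I : Finset ι) : Finset (L ι) := (Lz_fg I).choose

theorem closure_gens (I : Finset ι) : AddSubgroup.closure (gens I : Set (L ι)) = Lz I :=
  (Lz_fg I).choose_spec

open Classical in
/-- a sum-zero vector which is `v` on the support of `s` (if possible) -/
noncomputable def wit (v : ℤ × ℤ) (s : alternatingGroup ι) : L ι :=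
  if h : ∃ w : L ι, ∀ i ∈ (s : Perm ι).support, w.1 i = v then h.choose else 0

variable {C : Type*} [Fintype C] [DecidableEq C]

/-- relations: equivariance under constants -/
def relC (ι T : Type*) [Fintype ι] [DecidableEq ι] [Fintype T] [DecidableEq T] : Set (F ι T) :=
  Set.range (fun p : alternatingGroup ι × (gens (ι := ι) ∅) =>
    fr (const T p.1) * fd p.2.1 * (fr (const T p.1))⁻¹ * (fd (act p.1.1 p.2.1))⁻¹)

/-- relations: `d w` commutes with `rho a` if `w = 0` on the support of `a` -/
def relZ (ι T : Type*) [Fintype ι] [DecidableEq ι] [Fintype T] [DecidableEq T] : Set (F ι T) :=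
  Set.range (fun p : Σ a : T → alternatingGroup ι, gens (supp a) =>
    fd p.2.1 * fr p.1 * (fd p.2.1)⁻¹ * (fr p.1)⁻¹)

/-- relations: colour matching between neighbours at distance `v` -/
def relM (f g : T → C) (v : ℤ × ℤ) : Set (F ι T) :=
  Set.range (fun p : C × {s : alternatingGroup ι // (s : Perm ι).support ≠ Finset.univ} =>
    fd (wit v p.2.1) * fr (col f p.1 p.2.1) * (fd (wit v p.2.1))⁻¹ * (fr (col g p.1 p.2.1))⁻¹)

/-- all relations of `H` -/
def rels (ι : Type*) [Fintype ι] [DecidableEq ι] (east west north south : T → C) : Set (F ι T) :=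
  relC ι T ∪ relZ ι T ∪ relM east west (1, 0) ∪ relM north south (0, 1)

/-- The group `H`. -/
abbrev H (ι : Type*) [Fintype ι] [DecidableEq ι] (east west north south : T → C) :=
  F ι T ⧸ normalClosure (rels ι east west north south)

theorem rels_finite (east west north south : T → C) :
    (rels ι east west north south).Finite := by
  unfold rels relC relZ relM
  exact (((Set.finite_range _).union (Set.finite_range _)).union (Set.finite_range _)).union
    (Set.finite_range _)

/-- (H1) `H` is finitely presented. -/
instance H_fp (east west north south : T → C) :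
    Group.IsFinitelyPresented (H ι east west north south) := by
  have : Group.IsFinitelyPresented (Multiplicative (L ι)) := fp_of_fg_comm (L ι)
  exact Group.IsFinitelyPresented.quotient _ ⟨_, rels_finite _ _ _ _, rfl⟩

end

end Vale.Agent.P196.H881
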