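import Vale.Agent.P196.H881.HDef
import Mathlib.GroupTheory.SpecificGroups.Alternating.Centralizer
import Mathlib.GroupTheory.Subgroup.Center

/-!
Basic facts about the finitely presented group `H`.
-/

namespace Vale.Agent.P196.H881

set_option linter.unusedSectionVars false

open Subgroup Equiv
open scoped commutatorElement

variable {ι : Type*} [Fintype ι] [DecidableEq ι] {T : Type*} [Fintype T] [DecidableEq T]
variable {C : Type*} [Fintype C] [DecidableEq C] (E W N S : T → C)

/-- the projection `F → H` -/
abbrev q : F ι T →* H ι E W N S := QuotientGroup.mk' _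

/-- the elements `rho a` of `H` -/
noncomputable def rho : (T → alternatingGroup ι) →* H ι E W N S :=
  (q E W N S).comp Monoid.Coprod.inl

/-- the elements `d w` of `H` -/
noncomputable def d (w : L ι) : H ι E W N S := q E W N S (fd w)

/-- the constants -/
noncomputable def c (s : alternatingGroup ι) : H ι E W N S := rho E W N S (const T s)

variable {E W N S}

theorem d_add (w w' : L ι) : d E W N S (w + w') = d E W N S w * d E W N S w' := by
  unfold d
  rw [← map_mul, ← map_mul]
  rfl

theorem d_zero : d E W N S (0 : L ι) = 1 := by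
  have := d_add (E := E) (W := W) (N := N) (S := S) (0 : L ι) 0
  rw [add_zero] at this
  exact (left_eq_mul.1 this)

theorem d_neg (w : L ι) : d E W N S (-w) = (d E W N S w)⁻¹ := by
  rw [eq_comm, inv_eq_iff_mul_eq_one, ← d_add, add_neg_cancel, d_zero]

theorem d_comm (w w' : L ι) : Commute (d E W N S w) (d E W N S w') := by
  show _ * _ = _ * _
  rw [← d_add, ← d_add, add_comm]

theorem c_mul (s s' : alternatingGroup ι) : c E W N S (s * s') = c E W N S s * c E W N S s' := by
  unfold c
  rw [← map_mul]
  rfl

theorem c_one : c E W N S (1 : alternatingGroup ι) = 1 := by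
  unfold c
  exact map_one _

theorem c_inv (s : alternatingGroup ι) : c E W N S s⁻¹ = (c E W N S s)⁻¹ := by
  unfold c
  rw [← map_inv]
  rfl

theorem eq_of_rel {x y : F ι T} (h : x * y⁻¹ ∈ rels ι E W N S) :
    q E W N S x = q E W N S y := by
  have : q E W N S (x * y⁻¹) = 1 := (QuotientGroup.eq_one_iff _).2 (subset_normalClosure h)
  rwa [map_mul, map_inv, mul_inv_eq_one] at this

theorem Lz_empty : Lz (∅ : Finset ι) = ⊤ := by
  rw [eq_top_iff]; intro w _ i hi; simp at hi

/-- Equivariance of `d` under constants. -/
theorem c_d (g : alternatingGroup ι) (w : L ι) :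
    c E W N S g * d E W N S w * (c E W N S g)⁻¹ = d E W N S (act g.1 w) := by
  have hw : w ∈ AddSubgroup.closure (gens (∅ : Finset ι) : Set (L ι)) := by
    rw [closure_gens, Lz_empty]; exact AddSubgroup.mem_top _
  induction hw using AddSubgroup.closure_induction with
  | mem w hw =>
    have h := eq_of_rel (E := E) (W := W) (N := N) (S := S)
      (x := fr (const T g) * fd w * (fr (const T g))⁻¹) (y := fd (act g.1 w))
      (Or.inl (Or.inl (Or.inl ⟨(g, ⟨w, hw⟩), rfl⟩)))
    rw [map_mul, map_mul, map_inv] at h
    exact h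
  | zero => rw [act_zero, d_zero]; simp
  | add x y _ _ hx hy => rw [act_add, d_add, d_add, ← hx, ← hy]; group
  | neg x _ hx => rw [act_neg, d_neg, d_neg, ← hx]; group

/-- `d w` commutes with `rho a` if `w` vanishes on the support of `a`. -/
theorem d_rho_commute (w : L ι) (a : T → alternatingGroup ι) (h : ∀ i ∈ supp a, w.1 i = 0) :
    Commute (d E W N S w) (rho E W N S a) := by
  have hw : w ∈ AddSubgroup.closure (gens (supp a) : Set (L ι)) := by
    rw [closure_gens]; exact h
  clear h
  induction hw using AddSubgroup.closure_induction with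
  | mem w hw =>
    have h := eq_of_rel (E := E) (W := W) (N := N) (S := S)
      (x := fd w * fr a * (fd w)⁻¹) (y := fr a)
      (Or.inl (Or.inl (Or.inr ⟨⟨a, ⟨w, hw⟩⟩, rfl⟩)))
    rw [map_mul, map_mul, map_inv] at h
    exact mul_inv_eq_iff_eq_mul.1 h
  | zero => rw [d_zero]; exact Commute.one_left _
  | add x y _ _ hx hy => rw [d_add]; exact hx.mul_left hy
  | neg x _ hx => rw [d_neg]; exact hx.inv_left

theorem wit_spec (v : ℤ × ℤ) (s : alternatingGroup ι) (h : (s : Perm ι).support ≠ Finset.univ) :
    ∀ i ∈ (s : Perm ι).support, (wit v s).1 i = v := by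
  have h' := exists_L (s : Perm ι).support h v
  rw [wit, dif_pos h']
  exact h'.choose_spec

/-- the colour relations -/
theorem colour_h (k : C) (s : alternatingGroup ι) (h : (s : Perm ι).support ≠ Finset.univ) :
    d E W N S (wit (1, 0) s) * rho E W N S (col E k s) * (d E W N S (wit (1, 0) s))⁻¹
      = rho E W N S (col W k s) := by
  have h := eq_of_rel (E := E) (W := W) (N := N) (S := S)
      (x := fd (wit (1, 0) s) * fr (col E k s) * (fd (wit (1, 0) s))⁻¹) (y := fr (col W k s))
      (Or.inl (Or.inr ⟨(k, ⟨s, h⟩), rfl⟩))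
  rw [map_mul, map_mul, map_inv] at h
  exact h

theorem colour_v (k : C) (s : alternatingGroup ι) (h : (s : Perm ι).support ≠ Finset.univ) :
    d E W N S (wit (0, 1) s) * rho E W N S (col N k s) * (d E W N S (wit (0, 1) s))⁻¹
      = rho E W N S (col S k s) := by
  have h := eq_of_rel (E := E) (W := W) (N := N) (S := S)
      (x := fd (wit (0, 1) s) * fr (col N k s) * (fd (wit (0, 1) s))⁻¹) (y := fr (col S k s))
      (Or.inr ⟨(k, ⟨s, h⟩), rfl⟩)
  rw [map_mul, map_mul, map_inv] at h
  exact h

/-- `H` is generated by the `rho a` and the `d w`. -/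
theorem closure_gen : closure (Set.range (rho E W N S : (T → alternatingGroup ι) → _) ∪
    Set.range (d E W N S)) = ⊤ := by
  rw [eq_top_iff]
  intro x _
  obtain ⟨y, rfl⟩ := QuotientGroup.mk'_surjective _ x
  induction y using Monoid.Coprod.induction_on with
  | inl a => exact subset_closure (Or.inl ⟨a, rfl⟩)
  | inr w => exact subset_closure (Or.inr ⟨Multiplicative.toAdd w, rfl⟩)
  | mul x y hx hy => rw [map_mul]; exact mul_mem (hx (mem_top _)) (hy (mem_top _))

end Vale.Agent.P196.H881
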