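import Vale.Agent.P196.H881.HSupp
import Vale.Agent.P196.H83.PBA

/-!
The centreless quotient `H / Z(H)` as an instance of the event calculus (`Floors`), the site
events `evT v P` (`P` a set of tiles, `v` a site) and the shift of events.
-/

namespace Vale.Agent.P196.H881

set_option linter.unusedSectionVars false

open Subgroup Equiv
open Vale.Agent.P196.Ev

variable {ι : Type*} [Fintype ι] [DecidableEq ι] {T : Type*} [Fintype T] [DecidableEq T]
variable {C : Type*} [Fintype C] [DecidableEq C] (E W N S : T → C)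

/-- the centreless quotient -/
abbrev Hb (ι : Type*) [Fintype ι] [DecidableEq ι] (E W N S : T → C) :=
  H ι E W N S ⧸ center (H ι E W N S)

/-- the projection -/
abbrev mkc : H ι E W N S →* Hb ι E W N S := QuotientGroup.mk' _

theorem center_Hb (h5 : 5 ≤ Fintype.card ι) : center (Hb ι E W N S) = ⊥ :=
  gruen (H_perfect h5)

/-- Hypotheses on a group `G` with support subgroups `S` and constants `c` which make
`G / Z(G)` an instance of `Floors`. -/
structure PreFloors (ι : Type*) [Fintype ι] [DecidableEq ι] (G : Type*) [Group G] where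
  S : Finset ι → Subgroup G
  c : alternatingGroup ι → G
  mono : ∀ {I J : Finset ι}, I ⊆ J → S I ≤ S J
  comm : ∀ {I J : Finset ι}, Disjoint I J → ∀ x ∈ S I, ∀ y ∈ S J, Commute x y
  c_mul : ∀ v w, c (v * w) = c v * c w
  c_conj : ∀ (w : alternatingGroup ι) (I : Finset ι), ∀ x ∈ S I,
    c w * x * (c w)⁻¹ ∈ S (I.map (w : Perm ι).toEmbedding)
  c_supp : ∀ s : alternatingGroup ι, c s ∈ S (s : Perm ι).support
  gen : (⨆ J : {J : Finset ι // J.card ≤ 3}, S J.1) = ⊤
  perf : commutator G = ⊤
  card : 12 ≤ Fintype.card ι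

open Classical in
/-- The data `Floors` for `G / Z(G)`. -/
noncomputable def PreFloors.toFloors {G : Type*} [Group G] (Ψ : PreFloors ι G) :
    Floors ι (G ⧸ center G) where
  S I := (Ψ.S I).map (QuotientGroup.mk' (center G))
  mono h := map_mono (Ψ.mono h)
  comm := by
    rintro I J h _ ⟨x, hx, rfl⟩ _ ⟨y, hy, rfl⟩
    exact ((Ψ.comm h x hx y hy).map (QuotientGroup.mk' (center G))).eq
  c σ := if h : σ ∈ alternatingGroup ι then QuotientGroup.mk' (center G) (Ψ.c ⟨σ, h⟩) else 1
  c_mul := by
    intro v hv w hw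
    rw [dif_pos hv, dif_pos hw, dif_pos (mul_mem hv hw), ← map_mul, ← Ψ.c_mul]
    rfl
  c_conj := by
    rintro w hw I _ ⟨x, hx, rfl⟩
    rw [dif_pos hw]
    exact ⟨_, Ψ.c_conj ⟨w, hw⟩ I x hx, by rw [map_mul, map_mul, map_inv]⟩
  c_supp := by
    intro σ hσ
    rw [dif_pos hσ.mem_alternatingGroup]
    exact ⟨_, Ψ.c_supp ⟨σ, hσ.mem_alternatingGroup⟩, rfl⟩
  gen := by
    intro x hx
    obtain ⟨y, rfl⟩ := QuotientGroup.mk'_surjective _ x
    have h1 : QuotientGroup.mk' (center G) y ∈ center (G ⧸ center G) := by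
      rw [mem_center_iff]
      intro g
      obtain ⟨g, rfl⟩ := QuotientGroup.mk'_surjective _ g
      have hg : g ∈ (⨆ J : {J : Finset ι // J.card ≤ 3}, Ψ.S J.1) := by
        rw [Ψ.gen]; exact mem_top _
      have hle : (⨆ J : {J : Finset ι // J.card ≤ 3}, Ψ.S J.1) ≤
          (centralizer {QuotientGroup.mk' (center G) y}).comap (QuotientGroup.mk' (center G)) := by
        apply iSup_le
        rintro ⟨J, hJ⟩ z hz
        rw [mem_comap, mem_centralizer_singleton_iff]
        exact (hx J (hJ.trans (by norm_num)) _ ⟨z, hz, rfl⟩).symm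
      exact mem_centralizer_singleton_iff.1 (hle hg)
    rw [gruen Ψ.perf] at h1
    exact mem_bot.1 h1
  card := Ψ.card

/-- The data for `H`. -/
noncomputable def preFloors (hc : 12 ≤ Fintype.card ι) : PreFloors ι (H ι E W N S) where
  S := SH E W N S
  c := c E W N S
  mono := SH_mono
  comm h _ hx _ hy := SH_comm h hx hy
  c_mul := c_mul
  c_conj w _ _ hx := SH_conj w hx
  c_supp := c_mem_SH
  gen := by
    have hne : Nonempty ι := Fintype.card_pos_iff.1 (by omega)
    exact SH_gen
  perf := H_perfect (by omega)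
  card := hc

/-- The data `Floors` for `H / Z(H)`. -/
noncomputable def floors (hc : 12 ≤ Fintype.card ι) : Floors ι (Hb ι E W N S) :=
  (preFloors E W N S hc).toFloors

variable {E W N S}

theorem floors_S (hc : 12 ≤ Fintype.card ι) (I : Finset ι) :
    (floors E W N S hc).S I = (SH E W N S I).map (mkc E W N S) := rfl

theorem floors_c (hc : 12 ≤ Fintype.card ι) {σ : Perm ι} (h : σ ∈ alternatingGroup ι) :
    (floors E W N S hc).c σ = mkc E W N S (c E W N S ⟨σ, h⟩) := dif_pos h

/-! ### families given by a set of tiles -/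

/-- `s` on the tiles of `P`, `1` elsewhere -/
def sel (P : Finset T) (s : alternatingGroup ι) : T → alternatingGroup ι :=
  fun τ => if τ ∈ P then s else 1

theorem col_eq_sel (f : T → C) (k : C) (s : alternatingGroup ι) :
    col f k s = sel (Finset.univ.filter (fun τ => f τ = k)) s := by
  funext τ; simp [col, sel]

theorem sel_univ (s : alternatingGroup ι) : sel (Finset.univ : Finset T) s = const T s := by
  funext τ; simp [sel, const]

theorem sel_empty (s : alternatingGroup ι) : sel (∅ : Finset T) s = 1 := by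
  funext τ; simp [sel]

theorem sel_single (τ : T) (s : alternatingGroup ι) : sel {τ} s = Pi.mulSingle τ s := by
  funext τ'
  by_cases h : τ' = τ
  · subst h; simp [sel]
  · simp [sel, h]

theorem sel_mul (P : Finset T) (s s' : alternatingGroup ι) :
    sel P s * sel P s' = sel P (s * s') := by
  funext τ
  show (if τ ∈ P then s else 1) * (if τ ∈ P then s' else 1) = if τ ∈ P then s * s' else 1
  by_cases h : τ ∈ P <;> simp [h]

theorem sel_inv (P : Finset T) (s : alternatingGroup ι) : (sel P s)⁻¹ = sel P s⁻¹ := by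
  funext τ
  show (if τ ∈ P then s else 1)⁻¹ = if τ ∈ P then s⁻¹ else 1
  by_cases h : τ ∈ P <;> simp [h]

theorem sel_conj (P : Finset T) (g s : alternatingGroup ι) :
    const T g * sel P s * (const T g)⁻¹ = sel P (g * s * g⁻¹) := by
  funext τ
  show g * (if τ ∈ P then s else 1) * g⁻¹ = if τ ∈ P then g * s * g⁻¹ else 1
  by_cases h : τ ∈ P <;> simp [h]

theorem sel_commute {P Q : Finset T} (h : Disjoint P Q) (s s' : alternatingGroup ι) :
    Commute (sel P s) (sel Q s') := by
  show sel P s * sel Q s' = sel Q s' * sel P s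
  funext τ
  show (if τ ∈ P then s else 1) * (if τ ∈ Q then s' else 1) =
    (if τ ∈ Q then s' else 1) * (if τ ∈ P then s else 1)
  by_cases h1 : τ ∈ P
  · simp [h1, Finset.disjoint_left.1 h h1]
  · simp [h1]

theorem sel_union {P Q : Finset T} (h : Disjoint P Q) (s : alternatingGroup ι) :
    sel P s * sel Q s = sel (P ∪ Q) s := by
  funext τ
  show (if τ ∈ P then s else 1) * (if τ ∈ Q then s else 1) = if τ ∈ P ∪ Q then s else 1
  by_cases h1 : τ ∈ P
  · simp [h1, Finset.disjoint_left.1 h h1]
  · simp [h1]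

theorem supp_sel_le (P : Finset T) (s : alternatingGroup ι) :
    supp (sel P s) ⊆ (s : Perm ι).support := by
  intro i
  simp only [mem_supp, sel, Perm.mem_support]
  rintro ⟨τ, h⟩
  by_cases hk : τ ∈ P
  · simpa [hk] using h
  · simp [hk] at h

/-- a three-cycle as an element of the alternating group -/
abbrev al {σ : Perm ι} (h : σ.IsThreeCycle) : alternatingGroup ι := ⟨σ, h.mem_alternatingGroup⟩

theorem union_ne_univ (hc : 12 ≤ Fintype.card ι) {A B : Finset ι} (hA : A.card ≤ 5)
    (hB : B.card ≤ 5) : A ∪ B ≠ Finset.univ := by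
  intro h
  have h1 := Finset.card_union_le A B
  rw [h, Finset.card_univ] at h1
  omega

theorem sup_ne (hc : 12 ≤ Fintype.card ι) {P Q : Finset T} {s s' : alternatingGroup ι}
    (h : (s : Perm ι).support.card ≤ 5) (h' : (s' : Perm ι).support.card ≤ 5) :
    supp (sel P s) ∪ supp (sel Q s') ≠ Finset.univ :=
  union_ne_univ hc ((Finset.card_le_card (supp_sel_le P s)).trans h)
    ((Finset.card_le_card (supp_sel_le Q s')).trans h')

theorem sup_ne' (hc : 12 ≤ Fintype.card ι) {P : Finset T} {s : alternatingGroup ι}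
    (h : (s : Perm ι).support.card ≤ 5) : supp (sel P s) ≠ Finset.univ := by
  have := sup_ne hc (P := P) (Q := P) h h
  rwa [Finset.union_self] at this

theorem card_al {σ : Perm ι} (h : σ.IsThreeCycle) : ((al h : alternatingGroup ι) : Perm ι).support.card ≤ 5 := by
  rw [show ((al h : alternatingGroup ι) : Perm ι) = σ from rfl, h.card_support]; norm_num

/-- a displacement vector equal to `v` on `A` and vanishing off `I`, where `A ⊂ I` strictly -/
theorem exists_L_in {A I : Finset ι} (hAI : A ⊆ I) (hne : A ≠ I) (v : ℤ × ℤ) :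
    ∃ w : L ι, (∀ i ∈ A, w.1 i = v) ∧ ∀ i, i ∉ I → w.1 i = 0 := by
  obtain ⟨j, hjI, hjA⟩ : ∃ j, j ∈ I ∧ j ∉ A := by
    by_contra h; push Not at h
    exact hne (Finset.Subset.antisymm hAI (fun x hx => h x hx))
  refine ⟨⟨fun i => (if i ∈ A then v else 0) + (if i = j then -(A.card • v) else 0), ?_⟩, ?_, ?_⟩
  · rw [mem_L, Finset.sum_add_distrib]
    simp [Finset.sum_ite_mem]
  · intro i hi
    have h2 : i ≠ j := fun h => hjA (h ▸ hi)
    simp [hi, h2]
  · intro i hi
    have h1 : i ∉ A := fun h => hi (hAI h)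
    have h2 : i ≠ j := fun h => hi (h ▸ hjI)
    simp [h1, h2]

theorem site_mem_SH {v : ℤ × ℤ} {a : T → alternatingGroup ι} {I : Finset ι} (hI : supp a ⊆ I)
    (hne : supp a ≠ I) : site E W N S v a ∈ SH E W N S I := by
  obtain ⟨w, hw, hw'⟩ := exists_L_in hI hne v
  rw [site_eq hw]
  exact mul_mem (mul_mem (d_mem_SH hw') (rho_mem_SH hI)) (inv_mem (d_mem_SH hw'))

open Classical in
/-- The event the tile at relative position `-v` is in `P`. -/
noncomputable def evT (hc : 12 ≤ Fintype.card ι) (v : ℤ × ℤ) (P : Finset T) :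
    Event (floors E W N S hc) where
  t σ := if h : σ.IsThreeCycle then mkc E W N S (site E W N S v (sel P (al h))) else 1
  off σ h := dif_neg h
  mul := by
    intro σ τ hσ hτ hστ
    rw [dif_pos hσ, dif_pos hτ, dif_pos hστ, ← map_mul,
      ← site_mul (sup_ne hc (card_al hσ) (card_al hτ)), sel_mul]
    rfl
  conj := by
    intro σ τ hσ hτ
    have hcj := Ev.IsThreeCycle.conj hτ σ
    rw [dif_pos hσ, dif_pos hτ, dif_pos hcj, ← map_inv, ← map_mul, ← map_mul]
    congr 1
    have h1 : ((al hσ * al hτ : alternatingGroup ι) : Perm ι).support ∪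
        ((al hσ)⁻¹ : alternatingGroup ι).1.support ≠ Finset.univ := by
      intro h
      have h2 : ((al hσ * al hτ : alternatingGroup ι) : Perm ι).support ⊆
          σ.support ∪ τ.support := Perm.support_mul_le _ _
      have h3 : ((al hσ)⁻¹ : alternatingGroup ι).1.support = σ.support := Perm.support_inv _
      have h4 : (Finset.univ : Finset ι) ⊆ σ.support ∪ τ.support := by
        rw [← h, h3]
        exact Finset.union_subset h2 Finset.subset_union_left
      have h5 := (Finset.card_le_card h4).trans (Finset.card_union_le _ _)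
      rw [hσ.card_support, hτ.card_support, Finset.card_univ] at h5
      omega
    rw [← site_mul (sup_ne hc (card_al hσ) (card_al hτ)), sel_mul, ← site_inv, sel_inv,
      ← site_mul, sel_mul]
    · rfl
    · intro h
      apply h1
      rw [← Finset.univ_subset_iff, ← h]
      exact Finset.union_subset_union (supp_sel_le _ _) (supp_sel_le _ _)
  equiv := by
    intro w hw τ hτ
    have hcj := Ev.IsThreeCycle.conj hτ w
    rw [floors_c hc hw, dif_pos hτ, dif_pos hcj, ← map_inv, ← map_mul, ← map_mul]
    congr 1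
    rw [c_site _ (Or.inl (sup_ne' hc (card_al hτ))), sel_conj]
    rfl
  supp := by
    intro τ hτ I hI h5
    rw [dif_pos hτ, floors_S]
    refine ⟨_, site_mem_SH ((supp_sel_le _ _).trans hI) ?_, rfl⟩
    intro h
    have h1 := Finset.card_le_card (supp_sel_le P (al hτ))
    rw [h, show ((al hτ : alternatingGroup ι) : Perm ι) = τ from rfl, hτ.card_support] at h1
    omega

theorem evT_apply (hc : 12 ≤ Fintype.card ι) (v : ℤ × ℤ) (P : Finset T) {σ : Perm ι}
    (h : σ.IsThreeCycle) :
    (evT hc v P : Event (floors E W N S hc)) σ =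
      mkc E W N S (site E W N S v (sel P (al h))) := dif_pos h

theorem evT_univ (hc : 12 ≤ Fintype.card ι) (v : ℤ × ℤ) :
    (evT hc v Finset.univ : Event (floors E W N S hc)) = Event.const := by
  ext σ hσ
  rw [evT_apply hc v _ hσ, const_apply hσ, floors_c hc hσ.mem_alternatingGroup, sel_univ,
    site_const]

theorem evT_empty (hc : 12 ≤ Fintype.card ι) (v : ℤ × ℤ) :
    (evT hc v ∅ : Event (floors E W N S hc)) = Event.zero := by
  ext σ hσ
  rw [evT_apply hc v _ hσ, Ev.zero_apply, sel_empty, site_one, map_one]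

theorem evT_perp (hc : 12 ≤ Fintype.card ι) (v : ℤ × ℤ) {P Q : Finset T} (h : Disjoint P Q) :
    Perp (evT hc v P : Event (floors E W N S hc)) (evT hc v Q) := by
  intro σ τ hσ hτ
  rw [evT_apply hc v _ hσ, evT_apply hc v _ hτ, ← map_mul, ← map_mul,
    (site_commute_same (sel_commute h (al hσ) (al hτ)) (sup_ne hc (card_al hσ) (card_al hτ))).eq]

theorem evT_union (hc : 12 ≤ Fintype.card ι) (v : ℤ × ℤ) {P Q : Finset T} (h : Disjoint P Q) :
    (evT hc v (P ∪ Q) : Event (floors E W N S hc)) =
      Event.add (evT hc v P) (evT hc v Q) (evT_perp hc v h) := by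
  ext σ hσ
  rw [Ev.add_apply, evT_apply hc v _ hσ, evT_apply hc v _ hσ, evT_apply hc v _ hσ, ← map_mul,
    ← site_mul (sup_ne hc (card_al hσ) (card_al hσ)), sel_union h]

theorem evT_le (hc : 12 ≤ Fintype.card ι) (v : ℤ × ℤ) {P Q : Finset T} (h : P ⊆ Q) :
    Le (evT hc v P : Event (floors E W N S hc)) (evT hc v Q) := by
  have h1 : Q = P ∪ (Q \ P) := by rw [Finset.union_sdiff_of_subset h]
  have h2 : Disjoint P (Q \ P) := Finset.disjoint_sdiff
  rw [h1, evT_union hc v h2]
  exact le_add_left _

theorem evT_splits (hc : 12 ≤ Fintype.card ι) (v : ℤ × ℤ) (P Q : Finset T) :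
    Splits (evT hc v P : Event (floors E W N S hc)) (evT hc v Q) (evT hc v (P ∩ Q))
      (evT hc v (P \ Q)) where
  perp := evT_perp hc v (Finset.disjoint_of_subset_left Finset.inter_subset_right
    Finset.disjoint_sdiff)
  eq := by
    intro σ hσ
    have h2 : Disjoint (P ∩ Q) (P \ Q) :=
      Finset.disjoint_of_subset_left Finset.inter_subset_right Finset.disjoint_sdiff
    have h1 : P = (P ∩ Q) ∪ (P \ Q) := by
      ext x; simp only [Finset.mem_union, Finset.mem_inter, Finset.mem_sdiff]; tauto
    conv_lhs => rw [h1]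
    rw [evT_union hc v h2, Ev.add_apply]
  le := evT_le hc v Finset.inter_subset_right
  perpK := evT_perp hc v Finset.sdiff_disjoint

theorem evT_compat (hc : 12 ≤ Fintype.card ι) (v : ℤ × ℤ) (P Q : Finset T) :
    Compat (evT hc v P : Event (floors E W N S hc)) (evT hc v Q) :=
  ⟨_, _, evT_splits hc v P Q⟩

theorem evT_meet (hc : 12 ≤ Fintype.card ι) (v : ℤ × ℤ) (P Q : Finset T) :
    (evT hc v P : Event (floors E W N S hc)).meet (evT hc v Q) = evT hc v (P ∩ Q) :=
  meet_eq (evT_splits hc v P Q)

theorem evT_compl (hc : 12 ≤ Fintype.card ι) (v : ℤ × ℤ) (P : Finset T) :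
    (evT hc v P : Event (floors E W N S hc)).compl = evT hc v Pᶜ := by
  ext σ hσ
  rw [compl_apply _ hσ]
  have h1 : (Event.const : Event (floors E W N S hc)) σ =
      (evT hc v P : Event (floors E W N S hc)) σ * (evT hc v Pᶜ : Event (floors E W N S hc)) σ := by
    rw [← evT_univ hc v, ← Ev.add_apply (evT_perp hc v (disjoint_compl_right)),
      ← evT_union hc v disjoint_compl_right, Finset.union_compl]
  rw [const_apply hσ] at h1
  rw [h1]; group

/-- colour equality (horizontal) -/
theorem evT_hor (hc : 12 ≤ Fintype.card ι) (v : ℤ × ℤ) (k : C) :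
    (evT hc (v + (1, 0)) (Finset.univ.filter (fun τ => E τ = k)) : Event (floors E W N S hc)) =
      evT hc v (Finset.univ.filter (fun τ => W τ = k)) := by
  ext σ hσ
  have hne : ((al hσ : alternatingGroup ι) : Perm ι).support ≠ Finset.univ := by
    intro h
    have := card_al hσ
    rw [h, Finset.card_univ] at this
    omega
  rw [evT_apply hc _ _ hσ, evT_apply hc _ _ hσ, ← col_eq_sel, ← col_eq_sel,
    site_colour_h v k _ hne]

/-- colour equality (vertical) -/
theorem evT_ver (hc : 12 ≤ Fintype.card ι) (v : ℤ × ℤ) (k : C) :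
    (evT hc (v + (0, 1)) (Finset.univ.filter (fun τ => N τ = k)) : Event (floors E W N S hc)) =
      evT hc v (Finset.univ.filter (fun τ => S τ = k)) := by
  ext σ hσ
  have hne : ((al hσ : alternatingGroup ι) : Perm ι).support ≠ Finset.univ := by
    intro h
    have := card_al hσ
    rw [h, Finset.card_univ] at this
    omega
  rw [evT_apply hc _ _ hσ, evT_apply hc _ _ hσ, ← col_eq_sel, ← col_eq_sel,
    site_colour_v v k _ hne]

end Vale.Agent.P196.H881
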