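import Vale.Agent.P196.H881.HPi

/-!
`center H ≤ ker pi` for an aperiodic valid tiling, and the induced homomorphism
`pibar : H / Z(H) → Perm ((ℤ × ℤ) × ι)`.
-/

namespace Vale.Agent.P196.H881

set_option linter.unusedSectionVars false

open Subgroup Equiv
open Vale.Agent.P196.S0 (Z2 eP dP grp dP_apply eP_apply_mem eP_apply_notMem)

variable {ι : Type*} [Fintype ι] [DecidableEq ι] {T : Type*} [Fintype T] [DecidableEq T]
variable {C : Type*} [Fintype C] [DecidableEq C] {E W N S : T → C}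

theorem exists_notMem_pair (h4 : 4 ≤ Fintype.card ι) (i j : ι) :
    ∃ k l : ι, k ≠ i ∧ k ≠ j ∧ l ≠ i ∧ l ≠ j ∧ k ≠ l := by
  obtain ⟨k, hk⟩ : ∃ k, k ∉ ({i, j} : Finset ι) := by
    by_contra h; push Not at h
    have h2 : (Finset.univ : Finset ι) ⊆ {i, j} := fun x _ => h x
    have h3 := Finset.card_le_card h2
    have h4 : ({i, j} : Finset ι).card ≤ 2 := Finset.card_le_two
    rw [Finset.card_univ] at h3; omega
  obtain ⟨l, hl⟩ : ∃ l, l ∉ ({i, j, k} : Finset ι) := by
    by_contra h; push Not at h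
    have h2 : (Finset.univ : Finset ι) ⊆ {i, j, k} := fun x _ => h x
    have h3 := Finset.card_le_card h2
    have h4 : ({i, j, k} : Finset ι).card ≤ 3 := Finset.card_le_three
    rw [Finset.card_univ] at h3; omega
  simp only [Finset.mem_insert, Finset.mem_singleton, not_or] at hk hl
  exact ⟨k, l, hk.1, hk.2, hl.1, hl.2.1, Ne.symm hl.2.2⟩

/-- a three-cycle moving `i` to `j` and fixing everything except `i, j, k` -/
theorem exists_three {i j k : ι} (hij : i ≠ j) (hik : k ≠ i) (hjk : k ≠ j) :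
    ∃ s : alternatingGroup ι, (s : Perm ι).IsThreeCycle ∧ (s : Perm ι) i = j ∧
      ∀ l, l ≠ i → l ≠ j → l ≠ k → (s : Perm ι) l = l := by
  have hg3 : (swap i j * swap j k).IsThreeCycle := by
    have : swap i j * swap j k = swap j i * swap j k := by rw [swap_comm j i]
    rw [this]
    exact Perm.isThreeCycle_swap_mul_swap_same (Ne.symm hij) (Ne.symm hjk) (Ne.symm hik)
  refine ⟨⟨_, hg3.mem_alternatingGroup⟩, hg3, ?_, ?_⟩
  · show swap i j (swap j k i) = j
    rw [swap_apply_of_ne_of_ne hij (Ne.symm hik), swap_apply_left]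
  · intro l h1 h2 h3
    show swap i j (swap j k l) = l
    rw [swap_apply_of_ne_of_ne h2 h3, swap_apply_of_ne_of_ne h1 h2]

/-- The centraliser of the range of `pi` is trivial if the tiling is aperiodic. -/
theorem eq_one_of_commute {t : Z2 → T} (ht : Valid E W N S t)
    (hap : ∀ v : Z2, v ≠ 0 → ∃ u : Z2, t (u + v) ≠ t u) (h4 : 4 ≤ Fintype.card ι)
    (g : Perm (Z2 × ι)) (hg : ∀ x : H ι E W N S, g * pi ht x = pi ht x * g) : g = 1 := by
  have hg' : ∀ x p, g (pi ht x p) = pi ht x (g p) := fun x p => by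
    rw [← Perm.mul_apply, hg, Perm.mul_apply]
  have hcs : ∀ (s : alternatingGroup ι) (u : Z2) (f : ι),
      pi ht (c E W N S s) (u, f) = (u, (s : Perm ι) f) := by
    intro s u f
    rw [pi_c, eP_apply_mem (Set.mem_univ u)]
  -- floors are preserved
  have h1 : ∀ u f, (g (u, f)).2 = f := by
    intro u f
    by_contra hne
    obtain ⟨k, l, hk1, hk2, hl1, hl2, hkl⟩ := exists_notMem_pair h4 f (g (u, f)).2
    obtain ⟨s, -, hs1, hs2⟩ := exists_three (i := (g (u, f)).2) (j := k) (k := l) (Ne.symm hk2)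
      hl2 hkl.symm
    have h2 := hg' (c E W N S s) (u, f)
    rw [hcs, hs2 f (Ne.symm hne) (Ne.symm hk1) (Ne.symm hl1)] at h2
    have h3 : pi ht (c E W N S s) (g (u, f)) = ((g (u, f)).1, (s : Perm ι) (g (u, f)).2) := by
      rw [← hcs]
    rw [h3, hs1] at h2
    exact hk2 (congrArg Prod.snd h2).symm
  -- translations
  have h2 : ∀ (f : ι) (v u : Z2), (g (u + v, f)).1 = (g (u, f)).1 + v := by
    intro f v u
    obtain ⟨w, hw⟩ := exists_L ({f} : Finset ι) (by
      intro h
      have := congrArg Finset.card h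
      rw [Finset.card_singleton, Finset.card_univ] at this
      omega) v
    have hwf : w.1 f = v := hw f (Finset.mem_singleton_self f)
    have h3 := hg' (d E W N S w) (u, f)
    rw [pi_d, dP_apply, hwf] at h3
    rw [h3]
    have h4 : g (u, f) = ((g (u, f)).1, f) := Prod.ext rfl (h1 u f)
    rw [h4, dP_apply, hwf]
  have h3 : ∀ (s : alternatingGroup ι) (u : Z2) (f : ι),
      (g (u, (s : Perm ι) f)).1 = (g (u, f)).1 := by
    intro s u f
    have h3 := hg' (c E W N S s) (u, f)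
    rw [hcs] at h3
    have h4 : pi ht (c E W N S s) (g (u, f)) = ((g (u, f)).1, (s : Perm ι) (g (u, f)).2) := by
      rw [← hcs]
    rw [h3, h4]
  obtain ⟨f₀⟩ : Nonempty ι := Fintype.card_pos_iff.1 (by omega)
  have h5 : ∀ (u : Z2) (f : ι), (g (u, f)).1 = (g (u, f₀)).1 := by
    intro u f
    by_cases hf : f₀ = f
    · rw [hf]
    · obtain ⟨k, l, hk1, hk2, -⟩ := exists_notMem_pair h4 f₀ f
      obtain ⟨s, -, hs1, -⟩ := exists_three (i := f₀) (j := f) (k := k) hf hk1 hk2
      have := h3 s u f₀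
      rw [hs1] at this
      exact this
  have h6 : ∀ (u : Z2) (f : ι), g (u, f) = (u + (g (0, f₀)).1, f) := by
    intro u f
    apply Prod.ext
    · rw [h5]
      have := h2 f₀ u 0
      rw [zero_add] at this
      rw [this, add_comm]
    · exact h1 u f
  obtain ⟨v₀, hv₀⟩ : ∃ v₀, v₀ = (g (0, f₀)).1 := ⟨_, rfl⟩
  rw [← hv₀] at h6
  have h7 : v₀ = 0 := by
    by_contra hne
    obtain ⟨u, hu⟩ := hap _ hne
    obtain ⟨k, l, hk1, -, hl1, -, hkl⟩ := exists_notMem_pair h4 f₀ f₀
    obtain ⟨s, -, hs1, -⟩ := exists_three (i := f₀) (j := k) (k := l) (Ne.symm hk1) hl1 hkl.symm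
    have h8 := hg' (rho E W N S (Pi.mulSingle (t u) s)) (u, f₀)
    rw [pi_rho_apply, h6, h6, pi_rho_apply, Pi.mulSingle_eq_same, Pi.mulSingle_eq_of_ne hu] at h8
    have h9 := congrArg Prod.snd h8
    simp only [OneMemClass.coe_one, Perm.coe_one, id_eq] at h9
    rw [hs1] at h9
    exact hk1 h9
  ext1 ⟨u, f⟩
  rw [h6, h7, add_zero]
  rfl

variable {t : Z2 → T} (ht : Valid E W N S t)

theorem center_le_ker (hap : ∀ v : Z2, v ≠ 0 → ∃ u : Z2, t (u + v) ≠ t u)
    (h4 : 4 ≤ Fintype.card ι) : center (H ι E W N S) ≤ (pi ht).ker := by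
  intro x hx
  rw [MonoidHom.mem_ker]
  apply eq_one_of_commute ht hap h4
  intro y
  rw [← map_mul, ← map_mul, mem_center_iff.1 hx y]

/-- the homomorphism on the centreless quotient -/
noncomputable def pibar (hap : ∀ v : Z2, v ≠ 0 → ∃ u : Z2, t (u + v) ≠ t u)
    (h4 : 4 ≤ Fintype.card ι) :
    (H ι E W N S ⧸ center (H ι E W N S)) →* Perm (Z2 × ι) :=
  QuotientGroup.lift (center (H ι E W N S)) (pi ht)
    (fun _ hx => MonoidHom.mem_ker.1 (center_le_ker ht hap h4 hx))

theorem pibar_mk (hap : ∀ v : Z2, v ≠ 0 → ∃ u : Z2, t (u + v) ≠ t u)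
    (h4 : 4 ≤ Fintype.card ι) (x : H ι E W N S) :
    pibar ht hap h4 (QuotientGroup.mk' _ x) = pi ht x := rfl

theorem range_pi_le {LS : Set (Set Z2)}
    (hLS : ∀ τ : T, {u | t u = τ} ∈ LS) : (pi ht).range ≤ grp ι LS := by
  rw [MonoidHom.range_eq_map, ← closure_gen, MonoidHom.map_closure, closure_le]
  rintro _ ⟨x, hx | hx, rfl⟩
  · obtain ⟨a, rfl⟩ := hx
    have ha : a ∈ closure {a : T → alternatingGroup ι | ∃ (τ : T) (s : alternatingGroup ι),
        (s : Perm ι).IsThreeCycle ∧ a = Pi.mulSingle τ s} := by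
      rw [closure_single]; exact mem_top _
    show pi ht (rho E W N S a) ∈ grp ι LS
    induction ha using closure_induction with
    | mem a ha =>
      obtain ⟨τ, s, -, rfl⟩ := ha
      have h1 := pi_site_single ht (v := 0) (τ := τ) (s := s) (Or.inr rfl)
      rw [show site E W N S (0 : ℤ × ℤ) (Pi.mulSingle τ s) = rho E W N S (Pi.mulSingle τ s)
        from site_zero _] at h1
      rw [h1]
      apply Subgroup.subset_closure
      left
      refine ⟨{u | t (u - 0) = τ}, ?_, s, s.2, rfl⟩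
      simpa using hLS τ
    | one => rw [map_one, map_one]; exact one_mem _
    | mul a b _ _ ha hb => rw [map_mul, map_mul]; exact mul_mem ha hb
    | inv a _ ha => rw [map_inv, map_inv]; exact inv_mem ha
  · obtain ⟨w, rfl⟩ := hx
    rw [SetLike.mem_coe, pi_d]
    exact Subgroup.subset_closure (Or.inr ⟨w.1, mem_L.1 w.2, rfl⟩)

end Vale.Agent.P196.H881
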