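import Vale.Agent.P196.H881.HFacts

/-!
Site families: the tile event at the site `v`.
-/

namespace Vale.Agent.P196.H881

set_option linter.unusedSectionVars false

open Subgroup Equiv
open scoped commutatorElement

variable {ι : Type*} [Fintype ι] [DecidableEq ι] {T : Type*} [Fintype T] [DecidableEq T]
variable {C : Type*} [Fintype C] [DecidableEq C] {E W N S : T → C}

/-! ### supports -/

theorem supp_one : supp (1 : T → alternatingGroup ι) = ∅ := by
  ext i; simp [mem_supp]

theorem supp_mul (a b : T → alternatingGroup ι) : supp (a * b) ⊆ supp a ∪ supp b := by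
  intro i hi
  by_contra h
  rw [Finset.mem_union, not_or, not_mem_supp, not_mem_supp] at h
  rw [mem_supp] at hi
  obtain ⟨τ, hτ⟩ := hi
  apply hτ
  show (a τ : Perm ι) ((b τ : Perm ι) i) = i
  rw [h.2 τ, h.1 τ]

theorem supp_inv (a : T → alternatingGroup ι) : supp a⁻¹ = supp a := by
  ext i
  have key : ∀ a : T → alternatingGroup ι, i ∉ supp a → i ∉ supp a⁻¹ := by
    intro a ha
    rw [not_mem_supp] at ha ⊢
    intro τ
    show ((a τ : Perm ι)⁻¹) i = i
    rw [Perm.inv_eq_iff_eq]
    exact (ha τ).symm
  constructor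
  · intro h; by_contra h'; exact key a h' h
  · intro h; by_contra h'; have := key _ h'; rw [inv_inv] at this; exact this h

theorem supp_const [Nonempty T] (s : alternatingGroup ι) :
    supp (const T s) = (s : Perm ι).support := by
  ext i; simp [mem_supp, const]

theorem supp_const_le (s : alternatingGroup ι) :
    supp (const T s) ⊆ (s : Perm ι).support := by
  intro i; simp only [mem_supp, const, Perm.mem_support]; rintro ⟨_, h⟩; exact h

theorem supp_col_le (f : T → C) (k : C) (s : alternatingGroup ι) :
    supp (col f k s) ⊆ (s : Perm ι).support := by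
  intro i
  simp only [mem_supp, col, Perm.mem_support]
  rintro ⟨τ, h⟩
  by_cases hk : f τ = k
  · simpa [hk] using h
  · simp [hk] at h

theorem supp_single_le (τ : T) (s : alternatingGroup ι) :
    supp (Pi.mulSingle τ s) ⊆ (s : Perm ι).support := by
  intro i
  simp only [mem_supp, Perm.mem_support]
  rintro ⟨τ', h⟩
  by_cases hk : τ' = τ
  · subst hk; simpa using h
  · simp [Pi.mulSingle_eq_of_ne hk] at h

theorem supp_conj (g : alternatingGroup ι) (a : T → alternatingGroup ι) :
    supp (const T g * a * (const T g)⁻¹) = (supp a).map (g : Perm ι).toEmbedding := by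
  ext i
  simp only [mem_supp, Finset.mem_map, Equiv.coe_toEmbedding]
  constructor
  · rintro ⟨τ, h⟩
    refine ⟨(g : Perm ι)⁻¹ i, ⟨τ, ?_⟩, by simp⟩
    intro h'
    apply h
    show (g : Perm ι) ((a τ : Perm ι) (((g : Perm ι)⁻¹) i)) = i
    rw [h']; simp
  · rintro ⟨j, ⟨τ, h⟩, rfl⟩
    refine ⟨τ, ?_⟩
    intro h'
    apply h
    have : (g : Perm ι) ((a τ : Perm ι) (((g : Perm ι)⁻¹) ((g : Perm ι) j))) = (g : Perm ι) j := h'
    simpa using this

theorem commute_of_disjoint_supp {a b : T → alternatingGroup ι} (h : Disjoint (supp a) (supp b)) :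
    Commute a b := by
  show a * b = b * a
  funext τ
  apply Subtype.ext
  apply Equiv.Perm.Disjoint.commute
  intro i
  by_cases hi : i ∈ supp a
  · right; exact not_mem_supp.1 (Finset.disjoint_left.1 h hi) τ
  · left; exact not_mem_supp.1 hi τ

/-! ### the site families -/

open Classical in
/-- a sum-zero vector which is `v` on the support of `a` (if possible) -/
noncomputable def witF (v : ℤ × ℤ) (a : T → alternatingGroup ι) : L ι :=
  if h : ∃ w : L ι, ∀ i ∈ supp a, w.1 i = v then h.choose else 0

variable (E W N S) in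
/-- the family `a` at the site `v` -/
noncomputable def site (v : ℤ × ℤ) (a : T → alternatingGroup ι) : H ι E W N S :=
  d E W N S (witF v a) * rho E W N S a * (d E W N S (witF v a))⁻¹

theorem d_rho_d (w w' : L ι) (a : T → alternatingGroup ι) (h : ∀ i ∈ supp a, w.1 i = w'.1 i) :
    d E W N S w * rho E W N S a * (d E W N S w)⁻¹ =
      d E W N S w' * rho E W N S a * (d E W N S w')⁻¹ := by
  have h1 : Commute (d E W N S (-w' + w)) (rho E W N S a) := by
    apply d_rho_commute
    intro i hi
    show - w'.1 i + w.1 i = 0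
    rw [h i hi]; exact neg_add_cancel _
  have h2 : d E W N S w = d E W N S w' * d E W N S (-w' + w) := by
    rw [← d_add]; congr 1; abel
  rw [h2, mul_assoc (d E W N S w'), h1.eq]
  group

/-- `site v a` is the conjugate of `rho a` by any `d w` with `w = v` on the support of `a`. -/
theorem site_eq {v : ℤ × ℤ} {a : T → alternatingGroup ι} {w : L ι}
    (h : ∀ i ∈ supp a, w.1 i = v) :
    site E W N S v a = d E W N S w * rho E W N S a * (d E W N S w)⁻¹ := by
  have h' : ∃ w : L ι, ∀ i ∈ supp a, w.1 i = v := ⟨w, h⟩
  have h2 : ∀ i ∈ supp a, (witF v a).1 i = v := by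
    rw [witF, dif_pos h']; exact h'.choose_spec
  exact d_rho_d _ _ _ (fun i hi => by rw [h i hi, h2 i hi])

theorem site_zero (a : T → alternatingGroup ι) : site E W N S 0 a = rho E W N S a := by
  rw [site_eq (v := 0) (w := 0) (fun _ _ => rfl), d_zero]; simp

theorem site_one (v : ℤ × ℤ) : site E W N S v (1 : T → alternatingGroup ι) = 1 := by
  unfold site; simp

/-- conjugation by `d w` moves the site -/
theorem d_site {v u : ℤ × ℤ} {a : T → alternatingGroup ι} {w : L ι}
    (hu : supp a ≠ Finset.univ ∨ u = 0) (h : ∀ i ∈ supp a, w.1 i = v) :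
    d E W N S w * site E W N S u a * (d E W N S w)⁻¹ = site E W N S (v + u) a := by
  obtain ⟨w', hw'⟩ : ∃ w' : L ι, ∀ i ∈ supp a, w'.1 i = u := by
    rcases hu with hu | hu
    · exact exists_L _ hu u
    · exact ⟨0, fun i _ => by rw [hu]; rfl⟩
  rw [site_eq hw', site_eq (v := v + u) (w := w + w')
    (fun i hi => by show w.1 i + w'.1 i = v + u; rw [h i hi, hw' i hi]), d_add]
  group

theorem site_mul {v : ℤ × ℤ} {a b : T → alternatingGroup ι}
    (h : supp a ∪ supp b ≠ Finset.univ) :
    site E W N S v (a * b) = site E W N S v a * site E W N S v b := by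
  obtain ⟨w, hw⟩ := exists_L _ h v
  rw [site_eq (w := w) (fun i hi => hw i (supp_mul a b hi)),
    site_eq (w := w) (a := a) (fun i hi => hw i (Finset.mem_union_left _ hi)),
    site_eq (w := w) (a := b) (fun i hi => hw i (Finset.mem_union_right _ hi)), map_mul]
  group

theorem site_inv (v : ℤ × ℤ) (a : T → alternatingGroup ι) :
    site E W N S v a⁻¹ = (site E W N S v a)⁻¹ := by
  by_cases h : ∃ w : L ι, ∀ i ∈ supp a, w.1 i = v
  · obtain ⟨w, hw⟩ := h
    rw [site_eq hw, site_eq (w := w) (a := a⁻¹) (by rw [supp_inv]; exact hw), map_inv]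
    group
  · have h' : ¬ ∃ w : L ι, ∀ i ∈ supp a⁻¹, w.1 i = v := by rwa [supp_inv]
    rw [site, site, witF, witF, dif_neg h, dif_neg h', d_zero]; simp

/-- conjugation of a site family by a constant -/
theorem c_site {v : ℤ × ℤ} (g : alternatingGroup ι) {a : T → alternatingGroup ι}
    (hu : supp a ≠ Finset.univ ∨ v = 0) :
    c E W N S g * site E W N S v a * (c E W N S g)⁻¹ =
      site E W N S v (const T g * a * (const T g)⁻¹) := by
  obtain ⟨w, hw⟩ : ∃ w : L ι, ∀ i ∈ supp a, w.1 i = v := by
    rcases hu with hu | hu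
    · exact exists_L _ hu v
    · exact ⟨0, fun i _ => by rw [hu]; rfl⟩
  rw [site_eq hw, site_eq (w := act g.1 w)]
  · rw [← c_d, map_mul, map_mul, map_inv]
    show _ = _ * (c E W N S g * _ * (c E W N S g)⁻¹) * _
    group
  · intro i hi
    rw [supp_conj, Finset.mem_map] at hi
    obtain ⟨j, hj, rfl⟩ := hi
    have h1 : (g : Perm ι)⁻¹ ((g : Perm ι) j) = j := by simp
    rw [Equiv.coe_toEmbedding, act_apply, h1]
    exact hw j hj

/-- disjoint floors commute, whatever the sites are -/
theorem site_commute {v v' : ℤ × ℤ} {a b : T → alternatingGroup ι}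
    (h : Disjoint (supp a) (supp b)) (hU : supp a ∪ supp b ≠ Finset.univ) :
    Commute (site E W N S v a) (site E W N S v' b) := by
  obtain ⟨w, hw, hw'⟩ := exists_L₂ _ _ h hU v v'
  rw [site_eq hw, site_eq hw']
  have h1 : Commute (rho E W N S a) (rho E W N S b) :=
    (commute_of_disjoint_supp h).map (rho E W N S)
  exact (Commute.conj_iff _).2 h1

/-- same site: everything comes from the finite group -/
theorem site_commute_same {v : ℤ × ℤ} {a b : T → alternatingGroup ι}
    (h : Commute a b) (hU : supp a ∪ supp b ≠ Finset.univ) :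
    Commute (site E W N S v a) (site E W N S v b) := by
  have hU' : supp b ∪ supp a ≠ Finset.univ := by rwa [Finset.union_comm]
  show _ * _ = _ * _
  rw [← site_mul hU, ← site_mul hU', h.eq]

theorem const_conj (g s : alternatingGroup ι) :
    const T g * const T s * (const T g)⁻¹ = const T (g * s * g⁻¹) := rfl

/-- constants are the same at every site -/
theorem site_const (v : ℤ × ℤ) (s : alternatingGroup ι) :
    site E W N S v (const T s) = c E W N S s := by
  by_cases h : ∃ w : L ι, ∀ i ∈ supp (const T s), w.1 i = v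
  · obtain ⟨w, hw⟩ := h
    rcases isEmpty_or_nonempty T with hT | hT
    · have h1 : const T s = 1 := by funext τ; exact (IsEmpty.false τ).elim
      rw [c, h1, site_one, map_one]
    rw [supp_const] at hw
    rw [site_eq (w := w) (by rwa [supp_const])]
    have h2 : act s.1⁻¹ w = w := by
      apply Subtype.ext
      funext i
      rw [act_apply, inv_inv]
      by_cases hi : i ∈ (s : Perm ι).support
      · rw [hw i hi, hw _ (Perm.apply_mem_support.2 hi)]
      · rw [Perm.notMem_support.1 hi]
    have h3 := c_d (E := E) (W := W) (N := N) (S := S) s⁻¹ w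
    have h4 : act (s⁻¹ : alternatingGroup ι).1 w = w := h2
    rw [h4, c_inv, inv_inv] at h3
    show d E W N S w * c E W N S s * (d E W N S w)⁻¹ = c E W N S s
    have h6 : d E W N S w * c E W N S s = c E W N S s * d E W N S w := by
      calc d E W N S w * c E W N S s
          = c E W N S s * ((c E W N S s)⁻¹ * d E W N S w * c E W N S s) := by group
        _ = _ := by rw [h3]
    rw [h6]; group
  · rw [site, witF, dif_neg h, d_zero]; simp [c]

/-- horizontal colour equality between the sites `v` and `v + e₁`:
`site v` acts where the tile at `u - v` is such and such. -/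
theorem site_colour_h (v : ℤ × ℤ) (k : C) (s : alternatingGroup ι)
    (h : (s : Perm ι).support ≠ Finset.univ) :
    site E W N S (v + (1, 0)) (col E k s) = site E W N S v (col W k s) := by
  obtain ⟨w, hw⟩ := exists_L _ h v
  rw [site_eq (w := w) (v := v) (a := col W k s) (fun i hi => hw i (supp_col_le _ _ _ hi)),
    ← colour_h k s h]
  rw [site_eq (w := w + wit (1, 0) s), d_add]
  · group
  · intro i hi
    have hi' := supp_col_le _ _ _ hi
    show w.1 i + (wit (1, 0) s).1 i = v + (1, 0)
    rw [hw i hi', wit_spec _ _ h i hi']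

theorem site_colour_v (v : ℤ × ℤ) (k : C) (s : alternatingGroup ι)
    (h : (s : Perm ι).support ≠ Finset.univ) :
    site E W N S (v + (0, 1)) (col N k s) = site E W N S v (col S k s) := by
  obtain ⟨w, hw⟩ := exists_L _ h v
  rw [site_eq (w := w) (v := v) (a := col S k s) (fun i hi => hw i (supp_col_le _ _ _ hi)),
    ← colour_v k s h]
  rw [site_eq (w := w + wit (0, 1) s), d_add]
  · group
  · intro i hi
    have hi' := supp_col_le _ _ _ hi
    show w.1 i + (wit (0, 1) s).1 i = v + (0, 1)
    rw [hw i hi', wit_spec _ _ h i hi']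

end Vale.Agent.P196.H881
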