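import Vale.Agent.P196.H881.HSite

/-!
Perfectness of `H`, support subgroups, the centreless quotient.
-/

namespace Vale.Agent.P196.H881

set_option linter.unusedSectionVars false

open Subgroup Equiv
open scoped commutatorElement

/-- Grün's lemma. -/
theorem gruen {G : Type*} [Group G] (h : commutator G = ⊤) : center (G ⧸ center G) = ⊥ := by
  rw [eq_bot_iff]
  intro y hy
  obtain ⟨x, rfl⟩ := QuotientGroup.mk'_surjective _ y
  have hc : ∀ g : G, ⁅x, g⁆ ∈ center G := by
    intro g
    rw [← QuotientGroup.eq_one_iff]
    show QuotientGroup.mk' (center G) ⁅x, g⁆ = 1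
    rw [map_commutatorElement, commutatorElement_eq_one_iff_commute]
    exact (mem_center_iff.1 hy (QuotientGroup.mk' (center G) g)).symm
  let f : G →* G :=
    { toFun := fun g => ⁅x, g⁆
      map_one' := by simp
      map_mul' := by
        intro g k
        have h1 : g * ⁅x, k⁆ = ⁅x, k⁆ * g := mem_center_iff.1 (hc k) g
        calc ⁅x, g * k⁆ = ⁅x, g⁆ * (g * ⁅x, k⁆ * g⁻¹) := by
              simp only [commutatorElement_def]; group
          _ = ⁅x, g⁆ * ⁅x, k⁆ := by rw [h1]; group }
  have hle : commutator G ≤ f.ker := by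
    rw [_root_.commutator_def, commutator_le]
    intro g _ k _
    rw [MonoidHom.mem_ker, map_commutatorElement, commutatorElement_eq_one_iff_mul_comm]
    exact (mem_center_iff.1 (hc k) _)
  have hx : x ∈ center G := by
    rw [mem_center_iff]
    intro g
    have hg : g ∈ commutator G := by rw [h]; exact mem_top _
    have h1 : ⁅x, g⁆ = 1 := MonoidHom.mem_ker.1 (hle hg)
    exact (commutatorElement_eq_one_iff_mul_comm.1 h1).symm
  rw [mem_bot]
  exact (QuotientGroup.eq_one_iff x).2 hx

variable {ι : Type*} [Fintype ι] [DecidableEq ι] {T : Type*} [Fintype T] [DecidableEq T]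
variable {C : Type*} [Fintype C] [DecidableEq C] {E W N S : T → C}

/-- dipole displacement vector -/
def dip (i j : ι) (v : ℤ × ℤ) : L ι :=
  ⟨Pi.single i v - Pi.single j v, by
    rw [mem_L]
    simp [Finset.sum_sub_distrib]⟩

theorem dip_apply (i j : ι) (v : ℤ × ℤ) (k : ι) :
    (dip i j v).1 k = (if k = i then v else 0) - (if k = j then v else 0) := by
  show (Pi.single i v - Pi.single j v : ι → ℤ × ℤ) k = _
  rw [Pi.sub_apply, Pi.single_apply, Pi.single_apply]

theorem act_dip (g : Perm ι) (i j : ι) (v : ℤ × ℤ) : act g (dip i j v) = dip (g i) (g j) v := by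
  apply Subtype.ext
  funext k
  rw [act_apply, dip_apply, dip_apply]
  have h : ∀ i, (g⁻¹ k = i) = (k = g i) := by
    intro i; rw [Perm.inv_eq_iff_eq]
  simp only [h]

theorem coe_sum_L (s : Finset ι) (f : ι → L ι) :
    ((∑ i ∈ s, f i : L ι) : ι → ℤ × ℤ) = ∑ i ∈ s, (f i : ι → ℤ × ℤ) :=
  map_sum (L ι).subtype f s

theorem eq_sum_dip (j : ι) (w : L ι) : w = ∑ i, dip i j (w.1 i) := by
  apply Subtype.ext
  rw [coe_sum_L]
  funext k
  rw [Finset.sum_apply]
  simp only [dip_apply]
  rw [Finset.sum_sub_distrib]
  have h1 : ∑ i, (if k = i then w.1 i else 0) = w.1 k := by simp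
  have h2 : ∑ i, (if k = j then w.1 i else 0) = 0 := by
    by_cases hk : k = j
    · simp only [hk, if_true]; exact mem_L.1 w.2
    · simp [hk]
  rw [h1, h2, sub_zero]

theorem L_induction [Nonempty ι] {P : L ι → Prop} (h0 : P 0) (hadd : ∀ w w', P w → P w' → P (w + w'))
    (hdip : ∀ i j v, i ≠ j → P (dip i j v)) (w : L ι) : P w := by
  obtain ⟨j⟩ := ‹Nonempty ι›
  rw [eq_sum_dip j w]
  apply Finset.sum_induction _ P hadd h0
  intro i _
  by_cases hij : i = j
  · subst hij
    have : dip i i (w.1 i) = 0 := by
      apply Subtype.ext; funext k; rw [dip_apply, sub_self]; rfl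
    rw [this]; exact h0
  · exact hdip i j _ hij

/-- generation of `T → Alt` by three-cycles at single tiles -/
theorem closure_single : closure {a : T → alternatingGroup ι | ∃ (τ : T) (s : alternatingGroup ι),
    (s : Perm ι).IsThreeCycle ∧ a = Pi.mulSingle τ s} = ⊤ := by
  rw [eq_top_iff]
  intro a _
  apply Subgroup.pi_mem_of_mulSingle_mem
  intro τ
  have h1 : a τ ∈ closure {f : alternatingGroup ι | (f : Perm ι).IsThreeCycle} := by
    rw [alternatingGroup.closure_isThreeCycles_eq_top]; exact mem_top _
  have h2 : (closure {f : alternatingGroup ι | (f : Perm ι).IsThreeCycle}).map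
      (MonoidHom.mulSingle (fun _ : T => alternatingGroup ι) τ) ≤
      closure {a : T → alternatingGroup ι | ∃ (τ : T) (s : alternatingGroup ι),
        (s : Perm ι).IsThreeCycle ∧ a = Pi.mulSingle τ s} := by
    rw [MonoidHom.map_closure]
    apply Subgroup.closure_mono
    rintro _ ⟨s, hs, rfl⟩
    exact ⟨τ, s, hs, rfl⟩
  exact h2 ⟨a τ, h1, rfl⟩

/-- `H` is perfect. -/
theorem H_perfect (h5 : 5 ≤ Fintype.card ι) : commutator (H ι E W N S) = ⊤ := by
  rw [eq_top_iff, ← closure_gen, closure_le]
  have hrho : ∀ a : T → alternatingGroup ι, rho E W N S a ∈ commutator (H ι E W N S) := by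
    intro a
    have ha : a ∈ closure {a : T → alternatingGroup ι | ∃ (τ : T) (s : alternatingGroup ι),
        (s : Perm ι).IsThreeCycle ∧ a = Pi.mulSingle τ s} := by
      rw [closure_single]; exact mem_top _
    induction ha using closure_induction with
    | mem a ha =>
      obtain ⟨τ, s, -, rfl⟩ := ha
      have hs : s ∈ commutator (alternatingGroup ι) := by
        rw [commutator_alternatingGroup_eq_top (by rwa [Nat.card_eq_fintype_card])]
        exact mem_top _
      let f : alternatingGroup ι →* H ι E W N S :=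
        (rho E W N S).comp (MonoidHom.mulSingle (fun _ : T => alternatingGroup ι) τ)
      have h1 : (commutator (alternatingGroup ι)).map f ≤ commutator (H ι E W N S) := by
        rw [_root_.commutator_def, _root_.commutator_def, map_commutator]
        exact commutator_mono le_top le_top
      exact h1 ⟨s, hs, rfl⟩
    | one => rw [map_one]; exact one_mem _
    | mul a b _ _ ha hb => rw [map_mul]; exact mul_mem ha hb
    | inv a _ ha => rw [map_inv]; exact inv_mem ha
  rintro x (⟨a, rfl⟩ | ⟨w, rfl⟩)
  · exact hrho a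
  · have hne : Nonempty ι := Fintype.card_pos_iff.1 (by omega)
    refine L_induction (P := fun w => d E W N S w ∈ commutator (H ι E W N S)) ?_ ?_ ?_ w
    · rw [d_zero]; exact one_mem _
    · intro w w' h h'; rw [d_add]; exact mul_mem h h'
    · intro i j v hij
      obtain ⟨k, hk⟩ : ∃ k, k ∉ ({i, j} : Finset ι) := by
        by_contra h; push Not at h
        have := Finset.card_le_card (Finset.subset_univ ({i, j} : Finset ι))
        have h2 : (Finset.univ : Finset ι) ⊆ {i, j} := fun x _ => h x
        have h3 := Finset.card_le_card h2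
        have h4 : ({i, j} : Finset ι).card ≤ 2 := Finset.card_le_two
        rw [Finset.card_univ] at h3; omega
      obtain ⟨l, hl⟩ : ∃ l, l ∉ ({i, j, k} : Finset ι) := by
        by_contra h; push Not at h
        have h2 : (Finset.univ : Finset ι) ⊆ {i, j, k} := fun x _ => h x
        have h3 := Finset.card_le_card h2
        have h4 : ({i, j, k} : Finset ι).card ≤ 3 := Finset.card_le_three
        rw [Finset.card_univ] at h3; omega
      simp only [Finset.mem_insert, Finset.mem_singleton, not_or] at hk hl
      -- g = swap i j * swap k' ... a three-cycle moving i to j and fixing k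
      let g : Perm ι := swap i j * swap j l
      have hg3 : g.IsThreeCycle := by
        have : g = swap j i * swap j l := by rw [swap_comm j i]
        rw [this]
        exact Perm.isThreeCycle_swap_mul_swap_same (Ne.symm hij) (Ne.symm hl.2.1) (Ne.symm hl.1)
      have hgi : g i = j := by
        show swap i j (swap j l i) = j
        rw [swap_apply_of_ne_of_ne hij (Ne.symm hl.1), swap_apply_left]
      have hgk : g k = k := by
        show swap i j (swap j l k) = k
        rw [swap_apply_of_ne_of_ne hk.2 (Ne.symm hl.2.2), swap_apply_of_ne_of_ne hk.1 hk.2]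
      let g' : alternatingGroup ι := ⟨g, hg3.mem_alternatingGroup⟩
      have key : dip i j v = dip i k v + -(act g (dip i k v)) := by
        rw [act_dip, hgi, hgk]
        apply Subtype.ext
        funext m
        show (dip i j v).1 m = (dip i k v).1 m + -(dip j k v).1 m
        rw [dip_apply, dip_apply, dip_apply]
        abel
      rw [key, d_add, d_neg, show act g (dip i k v) = act g'.1 (dip i k v) from rfl, ← c_d]
      have : d E W N S (dip i k v) *
          (c E W N S g' * d E W N S (dip i k v) * (c E W N S g')⁻¹)⁻¹ =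
          ⁅d E W N S (dip i k v), c E W N S g'⁆ := by
        rw [commutatorElement_def]; group
      rw [this]
      exact commutator_mem_commutator (mem_top _) (mem_top _)

/-! ### support subgroups -/

variable (E W N S) in
/-- the subgroup of `H` supported on the floors in `I` -/
noncomputable def SH (I : Finset ι) : Subgroup (H ι E W N S) :=
  closure ({x | ∃ a : T → alternatingGroup ι, supp a ⊆ I ∧ rho E W N S a = x} ∪
    {x | ∃ w : L ι, (∀ i, i ∉ I → w.1 i = 0) ∧ d E W N S w = x})

theorem rho_mem_SH {I : Finset ι} {a : T → alternatingGroup ι} (h : supp a ⊆ I) :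
    rho E W N S a ∈ SH E W N S I := subset_closure (Or.inl ⟨a, h, rfl⟩)

theorem d_mem_SH {I : Finset ι} {w : L ι} (h : ∀ i, i ∉ I → w.1 i = 0) :
    d E W N S w ∈ SH E W N S I := subset_closure (Or.inr ⟨w, h, rfl⟩)

theorem SH_mono {I J : Finset ι} (h : I ⊆ J) : SH E W N S I ≤ SH E W N S J := by
  apply Subgroup.closure_mono
  rintro x (⟨a, ha, rfl⟩ | ⟨w, hw, rfl⟩)
  · exact Or.inl ⟨a, ha.trans h, rfl⟩
  · exact Or.inr ⟨w, fun i hi => hw i (fun h' => hi (h h')), rfl⟩

theorem SH_comm {I J : Finset ι} (h : Disjoint I J) {x y : H ι E W N S}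
    (hx : x ∈ SH E W N S I) (hy : y ∈ SH E W N S J) : Commute x y := by
  have key : ∀ x ∈ ({x | ∃ a : T → alternatingGroup ι, supp a ⊆ I ∧ rho E W N S a = x} ∪
      {x | ∃ w : L ι, (∀ i, i ∉ I → w.1 i = 0) ∧ d E W N S w = x}),
      ∀ y ∈ ({x | ∃ a : T → alternatingGroup ι, supp a ⊆ J ∧ rho E W N S a = x} ∪
      {x | ∃ w : L ι, (∀ i, i ∉ J → w.1 i = 0) ∧ d E W N S w = x}), Commute x y := by
    rintro x (⟨a, ha, rfl⟩ | ⟨w, hw, rfl⟩) y (⟨b, hb, rfl⟩ | ⟨w', hw', rfl⟩)
    · exact (commute_of_disjoint_supp (Finset.disjoint_of_subset_left ha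
        (Finset.disjoint_of_subset_right hb h))).map (rho E W N S)
    · exact (d_rho_commute w' a (fun i hi => hw' i (Finset.disjoint_left.1 h (ha hi)))).symm
    · exact d_rho_commute w b (fun i hi => hw i (Finset.disjoint_right.1 h (hb hi)))
    · exact d_comm w w'
  have step : ∀ x ∈ ({x | ∃ a : T → alternatingGroup ι, supp a ⊆ I ∧ rho E W N S a = x} ∪
      {x | ∃ w : L ι, (∀ i, i ∉ I → w.1 i = 0) ∧ d E W N S w = x}), Commute x y := by
    intro x hx
    induction hy using closure_induction with
    | mem y hy => exact key x hx y hy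
    | one => exact Commute.one_right _
    | mul y z _ _ h1 h2 => exact h1.mul_right h2
    | inv y _ h1 => exact h1.inv_right
  clear hy
  induction hx using closure_induction with
  | mem x hx => exact step x hx
  | one => exact Commute.one_left _
  | mul y z _ _ h1 h2 => exact h1.mul_left h2
  | inv y _ h1 => exact h1.inv_left

theorem SH_conj {I : Finset ι} (g : alternatingGroup ι) {x : H ι E W N S}
    (hx : x ∈ SH E W N S I) :
    c E W N S g * x * (c E W N S g)⁻¹ ∈ SH E W N S (I.map (g : Perm ι).toEmbedding) := by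
  induction hx using closure_induction with
  | mem x hx =>
    rcases hx with ⟨a, ha, rfl⟩ | ⟨w, hw, rfl⟩
    · have : c E W N S g * rho E W N S a * (c E W N S g)⁻¹ =
          rho E W N S (const T g * a * (const T g)⁻¹) := by
        rw [map_mul, map_mul, map_inv]; rfl
      rw [this]
      apply rho_mem_SH
      rw [supp_conj]
      exact Finset.map_subset_map.2 ha
    · rw [c_d]
      apply d_mem_SH
      intro i hi
      rw [act_apply]
      apply hw
      intro h'
      apply hi
      rw [Finset.mem_map]
      exact ⟨_, h', by simp⟩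
  | one => simp
  | mul x y _ _ hx hy =>
    have : c E W N S g * (x * y) * (c E W N S g)⁻¹ =
      (c E W N S g * x * (c E W N S g)⁻¹) * (c E W N S g * y * (c E W N S g)⁻¹) := by group
    rw [this]; exact mul_mem hx hy
  | inv x _ hx =>
    have : c E W N S g * x⁻¹ * (c E W N S g)⁻¹ = (c E W N S g * x * (c E W N S g)⁻¹)⁻¹ := by group
    rw [this]; exact inv_mem hx

theorem c_mem_SH (s : alternatingGroup ι) : c E W N S s ∈ SH E W N S (s : Perm ι).support :=
  rho_mem_SH (supp_const_le s)

/-- `H` is generated by the elements supported on at most three floors. -/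
theorem SH_gen [Nonempty ι] : (⨆ J : {J : Finset ι // J.card ≤ 3}, SH E W N S J.1) = ⊤ := by
  rw [eq_top_iff, ← closure_gen, closure_le]
  rintro x (⟨a, rfl⟩ | ⟨w, rfl⟩)
  · have ha : a ∈ closure {a : T → alternatingGroup ι | ∃ (τ : T) (s : alternatingGroup ι),
        (s : Perm ι).IsThreeCycle ∧ a = Pi.mulSingle τ s} := by
      rw [closure_single]; exact mem_top _
    show rho E W N S a ∈ (⨆ J : {J : Finset ι // J.card ≤ 3}, SH E W N S J.1)
    induction ha using closure_induction with
    | mem a ha =>
      obtain ⟨τ, s, hs, rfl⟩ := ha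
      refine mem_iSup_of_mem ⟨(s : Perm ι).support, ?_⟩ (rho_mem_SH (supp_single_le τ s))
      rw [hs.card_support]
    | one => rw [map_one]; exact one_mem _
    | mul a b _ _ ha hb => rw [map_mul]; exact mul_mem ha hb
    | inv a _ ha => rw [map_inv]; exact inv_mem ha
  · show d E W N S w ∈ (⨆ J : {J : Finset ι // J.card ≤ 3}, SH E W N S J.1)
    refine L_induction (P := fun w => d E W N S w ∈
      (⨆ J : {J : Finset ι // J.card ≤ 3}, SH E W N S J.1)) ?_ ?_ ?_ w
    · rw [d_zero]; exact one_mem _
    · intro w w' h h'; rw [d_add]; exact mul_mem h h'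
    · intro i j v _
      have h2 : ({i, j} : Finset ι).card ≤ 3 := Finset.card_le_two.trans (by norm_num)
      refine mem_iSup_of_mem ⟨{i, j}, h2⟩ (d_mem_SH ?_)
      · intro k hk
        simp only [Finset.mem_insert, Finset.mem_singleton, not_or] at hk
        rw [dip_apply, if_neg hk.1, if_neg hk.2, sub_zero]

/-- An element of `H` commuting with everything supported on at most three floors is central. -/
theorem mem_center_of_commute [Nonempty ι] {x : H ι E W N S}
    (h : ∀ J : Finset ι, J.card ≤ 3 → ∀ y ∈ SH E W N S J, Commute x y) :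
    x ∈ center (H ι E W N S) := by
  rw [mem_center_iff]
  intro g
  have hle : (⨆ J : {J : Finset ι // J.card ≤ 3}, SH E W N S J.1) ≤ centralizer {x} := by
    apply iSup_le
    rintro ⟨J, hJ⟩ y hy
    rw [mem_centralizer_singleton_iff]
    exact (h J hJ y hy).eq.symm
  rw [SH_gen] at hle
  exact mem_centralizer_singleton_iff.1 (hle (mem_top g))

end Vale.Agent.P196.H881
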